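import Vale.Agent.Lib.P123.Defs

open Complex Polynomial

namespace Vale.Agent.Lib.P123

/-- a coercive operator is invertible -/
theorem isUnit_of_coercive {H : Type*} [NormedAddCommGroup H] [InnerProductSpace ℂ H]
    [CompleteSpace H] (T : H →L[ℂ] H) (c : ℝ) (hc : 0 < c)
    (hT : ∀ u : H, c * ‖u‖ ^ 2 ≤ (inner ℂ u (T u)).re) : IsUnit T := by
  set M : ℝ := ‖T‖ + c with hM
  have hTn : 0 ≤ ‖T‖ := norm_nonneg T
  have hMc : c ≤ M := by rw [hM]; linarith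
  have hM0 : 0 < M := lt_of_lt_of_le hc hMc
  set τ : ℝ := c / M ^ 2 with hτ
  have hτ0 : 0 < τ := by positivity
  set ρ : ℝ := 1 - c ^ 2 / M ^ 2 with hρ
  have hcM : c ^ 2 / M ^ 2 ≤ 1 := by
    rw [div_le_one (by positivity)]
    exact pow_le_pow_left₀ hc.le hMc 2
  have hρ0 : 0 ≤ ρ := by rw [hρ]; linarith
  have hρ1 : ρ < 1 := by
    rw [hρ]
    have : 0 < c ^ 2 / M ^ 2 := by positivity
    linarith
  have key : ∀ u : H, ‖(1 - (τ : ℂ) • T) u‖ ^ 2 ≤ ρ * ‖u‖ ^ 2 := by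
    intro u
    have e1 : (1 - (τ : ℂ) • T) u = u - (τ : ℂ) • T u := by simp
    rw [e1, norm_sub_sq (𝕜 := ℂ)]
    have h1 : RCLike.re (inner ℂ u ((τ : ℂ) • T u)) = τ * (inner ℂ u (T u)).re := by
      rw [inner_smul_right]
      simp
    have h2 : ‖(τ : ℂ) • T u‖ ^ 2 = τ ^ 2 * ‖T u‖ ^ 2 := by
      rw [norm_smul, mul_pow]
      simp
    rw [h1, h2]
    have h3 : ‖T u‖ ^ 2 ≤ M ^ 2 * ‖u‖ ^ 2 := by
      rw [← mul_pow]
      refine pow_le_pow_left₀ (norm_nonneg _) ?_ 2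
      calc ‖T u‖ ≤ ‖T‖ * ‖u‖ := T.le_opNorm u
        _ ≤ M * ‖u‖ := by
          refine mul_le_mul_of_nonneg_right ?_ (norm_nonneg _)
          rw [hM]; linarith
    have h4 := hT u
    have h5 : τ ^ 2 * (M ^ 2 * ‖u‖ ^ 2) = τ * c * ‖u‖ ^ 2 := by
      rw [hτ]; field_simp
    have h6 : ρ = 1 - τ * c := by rw [hρ, hτ]; ring
    rw [h6]
    have h7 : τ ^ 2 * ‖T u‖ ^ 2 ≤ τ * c * ‖u‖ ^ 2 := by
      rw [← h5]; exact mul_le_mul_of_nonneg_left h3 (by positivity)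
    have h8 : τ * (c * ‖u‖ ^ 2) ≤ τ * (inner ℂ u (T u)).re :=
      mul_le_mul_of_nonneg_left h4 hτ0.le
    nlinarith
  have hnorm : ‖(1 - (τ : ℂ) • T : H →L[ℂ] H)‖ < 1 := by
    have hle : ‖(1 - (τ : ℂ) • T : H →L[ℂ] H)‖ ≤ Real.sqrt ρ := by
      refine ContinuousLinearMap.opNorm_le_bound _ (Real.sqrt_nonneg _) fun u => ?_
      have h1 : ‖(1 - (τ : ℂ) • T) u‖ ^ 2 ≤ (Real.sqrt ρ * ‖u‖) ^ 2 := by
        rw [mul_pow, Real.sq_sqrt hρ0]; exact key u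
      exact le_of_sq_le_sq h1 (by positivity)
    refine lt_of_le_of_lt hle ?_
    rw [show (1 : ℝ) = Real.sqrt 1 by simp]
    exact Real.sqrt_lt_sqrt hρ0 hρ1
  have hu : IsUnit ((τ : ℂ) • T) := by
    have := isUnit_one_sub_of_norm_lt_one hnorm
    simpa using this
  have hτc : (τ : ℂ) ≠ 0 := by exact_mod_cast hτ0.ne'
  have := (isUnit_smul_iff (Units.mk0 (τ : ℂ) hτc) T).1
  exact this hu

theorem inverse_apply_bound {H : Type*} [NormedAddCommGroup H] [InnerProductSpace ℂ H]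
    [CompleteSpace H] (T : H →L[ℂ] H) (c : ℝ) (hc : 0 < c)
    (hT : ∀ u : H, c * ‖u‖ ^ 2 ≤ (inner ℂ u (T u)).re) (u : H) :
    ‖(Ring.inverse T) u‖ ≤ 1 / c * ‖u‖ ∧ T ((Ring.inverse T) u) = u := by
  have hu := isUnit_of_coercive T c hc hT
  have h1 : T ((Ring.inverse T) u) = u := by
    have := Ring.mul_inverse_cancel T hu
    have h2 := congrArg (fun S : H →L[ℂ] H => S u) this
    simpa using h2
  refine ⟨?_, h1⟩
  set v := (Ring.inverse T) u with hv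
  have h2 := hT v
  rw [h1] at h2
  have h3 : (inner ℂ v u).re ≤ ‖v‖ * ‖u‖ := by
    calc (inner ℂ v u).re ≤ ‖inner ℂ v u‖ := Complex.re_le_norm _
      _ ≤ ‖v‖ * ‖u‖ := norm_inner_le_norm v u
  rcases (norm_nonneg v).eq_or_lt with h0 | h0
  · rw [← h0]; positivity
  · have h4 : c * ‖v‖ ≤ ‖u‖ := by
      have : ‖v‖ * (c * ‖v‖) ≤ ‖v‖ * ‖u‖ := by nlinarith
      exact le_of_mul_le_mul_left this h0
    rw [div_mul_eq_mul_div, le_div_iff₀ hc]
    linarith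

/-- norm bound for the inverse -/
theorem norm_inverse_le {H : Type*} [NormedAddCommGroup H] [InnerProductSpace ℂ H]
    [CompleteSpace H] (T : H →L[ℂ] H) (c : ℝ) (hc : 0 < c)
    (hT : ∀ u : H, c * ‖u‖ ^ 2 ≤ (inner ℂ u (T u)).re) : ‖Ring.inverse T‖ ≤ 1 / c :=
  ContinuousLinearMap.opNorm_le_bound _ (by positivity)
    fun u => (inverse_apply_bound T c hc hT u).1

/-- the inverse is accretive -/
theorem inverse_accretive {H : Type*} [NormedAddCommGroup H] [InnerProductSpace ℂ H]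
    [CompleteSpace H] (T : H →L[ℂ] H) (c : ℝ) (hc : 0 < c)
    (hT : ∀ u : H, c * ‖u‖ ^ 2 ≤ (inner ℂ u (T u)).re) (u : H) :
    0 ≤ (inner ℂ u ((Ring.inverse T) u)).re := by
  have h := (inverse_apply_bound T c hc hT u).2
  set v := (Ring.inverse T) u with hv
  have h1 := hT v
  rw [h] at h1
  have h2 : (inner ℂ u v).re = (inner ℂ v u).re := inner_re_symm (𝕜 := ℂ) u v
  rw [h2]
  exact le_trans (by positivity) h1

end Vale.Agent.Lib.P123
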