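import Vale.Agent.Lib.P123.Defs

open Complex Polynomial

namespace Vale.Agent.Lib.P123

/-- the phase: `c w` is real for a unimodular `c`. -/
theorem exists_phase (w : ℂ) : ∃ c : ℂ, ‖c‖ = 1 ∧ (c * w).im = 0 := by
  by_cases hw : w = 0
  · exact ⟨1, by simp, by simp [hw]⟩
  · have hn : (‖w‖ : ℂ) ≠ 0 := by
      simpa using hw
    refine ⟨(starRingEnd ℂ) w / ‖w‖, ?_, ?_⟩
    · rw [norm_div, Complex.norm_real, norm_norm, RCLike.norm_conj]
      exact div_self (by simpa using hw)
    · have h1 : (starRingEnd ℂ) w / ‖w‖ * w = (‖w‖ : ℂ) := by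
        have h2 : (starRingEnd ℂ) w * w = (‖w‖ : ℂ) ^ 2 := Complex.conj_mul' w
        field_simp
        rw [h2]
      rw [h1]
      exact Complex.ofReal_im _

/-- Toeplitz-Hausdorff: the numerical range is convex. -/
theorem convex_numRange {H : Type*} [NormedAddCommGroup H] [InnerProductSpace ℂ H]
    (A : H →L[ℂ] H) : Convex ℝ (numRange A) := by
  rintro _ ⟨x, hx, rfl⟩ _ ⟨y, hy, rfl⟩ r t hr ht hrt
  set a : ℂ := inner ℂ x (A x) with ha
  set b : ℂ := inner ℂ y (A y) with hb
  by_cases hab : a = b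
  · refine ⟨x, hx, ?_⟩
    rw [← ha, ← hab, ← add_smul, hrt, one_smul]
  have hba : b - a ≠ 0 := sub_ne_zero.2 (Ne.symm hab)
  -- the sesquilinear form
  set B : H → H → ℂ := fun u v => (inner ℂ u (A v) - a * inner ℂ u v) / (b - a) with hB
  have hxx : inner ℂ x x = (1 : ℂ) := by
    rw [inner_self_eq_norm_sq_to_K, hx]; simp
  have hyy : inner ℂ y y = (1 : ℂ) := by
    rw [inner_self_eq_norm_sq_to_K, hy]; simp
  have Bxx : B x x = 0 := by
    simp only [hB, hxx, ← ha]; simp
  have Byy : B y y = 1 := by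
    simp only [hB, hyy, ← hb, mul_one]
    exact div_self hba
  obtain ⟨c, hc1, hc2⟩ := exists_phase (B x y - (starRingEnd ℂ) (B y x))
  have hcc : (starRingEnd ℂ) c * c = 1 := by
    rw [Complex.conj_mul', hc1]; simp
  -- the path
  set z : ℝ → H := fun s => ((1 - s : ℝ) : ℂ) • x + ((s : ℂ) * c) • y with hz
  have hBz : ∀ s : ℝ, B (z s) (z s) = ((s ^ 2 : ℝ) : ℂ) + ((s * (1 - s) : ℝ) : ℂ) *
      (c * B x y + (starRingEnd ℂ) c * B y x) := by
    intro s
    have e1 : inner ℂ (z s) (A (z s)) = ((1 - s : ℝ) : ℂ) * ((1 - s : ℝ) : ℂ) * a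
        + ((1 - s : ℝ) : ℂ) * (s * c) * inner ℂ x (A y)
        + ((1 - s : ℝ) : ℂ) * (s * (starRingEnd ℂ) c) * inner ℂ y (A x)
        + s * s * b := by
      simp only [hz, map_add, map_smul, inner_add_left, inner_add_right, inner_smul_left,
        inner_smul_right, map_mul, Complex.conj_ofReal, ← ha, ← hb]
      linear_combination (s * s * b : ℂ) * hcc
    have e2 : inner ℂ (z s) (z s) = ((1 - s : ℝ) : ℂ) * ((1 - s : ℝ) : ℂ)
        + ((1 - s : ℝ) : ℂ) * (s * c) * inner ℂ x y
        + ((1 - s : ℝ) : ℂ) * (s * (starRingEnd ℂ) c) * inner ℂ y x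
        + s * s := by
      simp only [hz, inner_add_left, inner_add_right, inner_smul_left,
        inner_smul_right, map_mul, Complex.conj_ofReal, hxx, hyy]
      linear_combination (s * s : ℂ) * hcc
    simp only [hB]
    rw [e1, e2]
    push_cast
    field_simp
    ring
  have hreal : ∀ s : ℝ, (B (z s) (z s)).im = 0 := by
    intro s
    rw [hBz s, Complex.add_im, Complex.ofReal_im, zero_add, Complex.im_ofReal_mul]
    have h3 : (c * B x y + (starRingEnd ℂ) c * B y x).im = 0 := by
      rw [← hc2]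
      simp only [Complex.add_im, Complex.mul_im, Complex.sub_im, Complex.sub_re, Complex.conj_re,
        Complex.conj_im]
      ring
    rw [h3, mul_zero]
  have hzc : Continuous z := by
    rw [hz]
    fun_prop
  have hBc : Continuous (fun s : ℝ => B (z s) (z s)) := by
    simp only [hB]
    refine Continuous.div_const ?_ _
    refine Continuous.sub ?_ ?_
    · exact Continuous.inner hzc (A.continuous.comp hzc)
    · exact continuous_const.mul (Continuous.inner hzc hzc)
  have hz0 : ∀ s : ℝ, z s ≠ 0 := by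
    intro s hs
    -- `(1-s) x = - s c y`
    have h1 : ((1 - s : ℝ) : ℂ) • x = -(((s : ℂ) * c) • y) := by
      rw [eq_neg_iff_add_eq_zero]
      exact hs
    have h2 : |1 - s| = |s| := by
      have := congrArg norm h1
      rw [norm_neg, norm_smul, norm_smul, hx, hy, norm_mul, hc1, Complex.norm_real,
        Complex.norm_real] at this
      simpa using this
    have h3 : s = 1 / 2 := by
      rcases abs_eq_abs.1 h2 with h | h <;> linarith
    have h4 : x = (-c) • y := by
      rw [h3] at h1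
      have h5 : ((1 - 1 / 2 : ℝ) : ℂ) = (((1 / 2 : ℝ) : ℝ) : ℂ) := by norm_num
      rw [h5, mul_smul, ← smul_neg, ← neg_smul] at h1
      have h6 : (((1 / 2 : ℝ) : ℝ) : ℂ) ≠ 0 := by norm_num
      exact smul_right_injective H h6 h1
    have h7 : a = b := by
      rw [ha, hb, h4, map_smul, inner_smul_left, inner_smul_right]
      rw [← mul_assoc]
      have : (starRingEnd ℂ) (-c) * -c = 1 := by
        rw [map_neg, neg_mul_neg]; exact hcc
      rw [this, one_mul]
    exact hab h7
  -- IVT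
  have ht1 : t ≤ 1 := by linarith
  have hφ : ContinuousOn (fun s : ℝ => (B (z s) (z s)).re - t * ‖z s‖ ^ 2) (Set.Icc 0 1) := by
    refine Continuous.continuousOn ?_
    exact (Complex.continuous_re.comp hBc).sub (continuous_const.mul (hzc.norm.pow 2))
  have hz0' : z 0 = x := by simp [hz]
  have hz1' : z 1 = c • y := by simp [hz]
  have hB1 : B (z 1) (z 1) = 1 := by rw [hBz 1]; norm_num
  have hn1 : ‖z 1‖ = 1 := by rw [hz1', norm_smul, hc1, hy, one_mul]
  have h01 : (0 : ℝ) ∈ Set.Icc ((B (z 0) (z 0)).re - t * ‖z 0‖ ^ 2)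
      ((B (z 1) (z 1)).re - t * ‖z 1‖ ^ 2) := by
    constructor
    · rw [hz0', Bxx, hx]; simp [ht]
    · rw [hB1, hn1]; simp [ht1]
  obtain ⟨s, _, hs⟩ := intermediate_value_Icc (zero_le_one) hφ h01
  have hs' : B (z s) (z s) = ((t * ‖z s‖ ^ 2 : ℝ) : ℂ) := by
    apply Complex.ext
    · rw [Complex.ofReal_re]
      have : (B (z s) (z s)).re - t * ‖z s‖ ^ 2 = 0 := hs
      linarith
    · rw [hreal s, Complex.ofReal_im]
  have hnz : ‖z s‖ ≠ 0 := norm_ne_zero_iff.2 (hz0 s)
  have hnz' : (‖z s‖ : ℂ) ≠ 0 := by exact_mod_cast hnz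
  refine ⟨((‖z s‖⁻¹ : ℝ) : ℂ) • z s, ?_, ?_⟩
  · rw [norm_smul, Complex.norm_real, norm_inv, norm_norm, inv_mul_cancel₀ hnz]
  · have e1 : inner ℂ (z s) (A (z s)) = (a + t * (b - a)) * (‖z s‖ : ℂ) ^ 2 := by
      have h8 : inner ℂ (z s) (z s) = (‖z s‖ : ℂ) ^ 2 := by
        rw [inner_self_eq_norm_sq_to_K]; simp
      have h9 : (inner ℂ (z s) (A (z s)) - a * inner ℂ (z s) (z s)) / (b - a) =
          ((t * ‖z s‖ ^ 2 : ℝ) : ℂ) := hs'
      rw [div_eq_iff hba, h8] at h9
      push_cast at h9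
      linear_combination h9
    rw [map_smul, inner_smul_left, inner_smul_right, Complex.conj_ofReal, e1]
    have hr' : r = 1 - t := by linarith
    rw [hr']
    simp only [Complex.real_smul]
    push_cast
    field_simp
    ring

end Vale.Agent.Lib.P123
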