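import Vale.Agent.Lib.P123.Defs

open Complex Polynomial

namespace Vale.Agent.Lib.P123

section
variable {H : Type*} [NormedAddCommGroup H] [InnerProductSpace ℂ H]

/-- expansion of the quadratic form -/
theorem form_expand (D : H →L[ℂ] H) (hD : ∀ u v : H, inner ℂ v (D u) = starRingEnd ℂ (inner ℂ u (D v)))
    (α β : ℂ) (x y e : H) :
    (inner ℂ (α • x - y - β • e) (D (α • x - y - β • e))).re =
      ‖α‖ ^ 2 * (inner ℂ x (D x)).re + (inner ℂ y (D y)).re + ‖β‖ ^ 2 * (inner ℂ e (D e)).re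
      - 2 * (α * inner ℂ y (D x)).re
      - 2 * (α * starRingEnd ℂ β * inner ℂ e (D x) - starRingEnd ℂ β * inner ℂ e (D y)).re := by
  have h1 : inner ℂ x (D y) = starRingEnd ℂ (inner ℂ y (D x)) := hD y x
  have h2 : inner ℂ x (D e) = starRingEnd ℂ (inner ℂ e (D x)) := hD e x
  have h3 : inner ℂ y (D e) = starRingEnd ℂ (inner ℂ e (D y)) := hD e y
  have e1 : (inner ℂ x (D x)).im = 0 := by
    have := congrArg Complex.im (hD x x)
    simp only [Complex.conj_im] at this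
    linarith
  have e2 : (inner ℂ e (D e)).im = 0 := by
    have := congrArg Complex.im (hD e e)
    simp only [Complex.conj_im] at this
    linarith
  simp only [map_sub, map_smul, inner_sub_left, inner_sub_right, inner_smul_left,
    inner_smul_right, h1, h2, h3]
  simp only [Complex.sq_norm, Complex.normSq_apply, Complex.sub_re, Complex.mul_re, Complex.conj_re,
    Complex.conj_im, Complex.mul_im, Complex.sub_im, e1, e2]
  ring

/-- pointwise inequality -/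
theorem pointwise_ineq (D : H →L[ℂ] H)
    (hD : ∀ u v : H, inner ℂ v (D u) = starRingEnd ℂ (inner ℂ u (D v)))
    (hpos : ∀ u : H, 0 ≤ (inner ℂ u (D u)).re)
    (α : ℂ) (hα : ‖α‖ ≤ 1) (κ : ℝ) (j : ℕ) (x y e : H) :
    0 ≤ (inner ℂ x (D x)).re + (inner ℂ y (D y)).re + κ ^ 2 * (inner ℂ e (D e)).re
      - 2 * (α * inner ℂ y (D x)).re
      - 2 * κ * (α ^ (j + 1) * inner ℂ e (D x) - α ^ j * inner ℂ e (D y)).re := by
  have h := form_expand D hD α (κ * starRingEnd ℂ (α ^ j)) x y e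
  have h0 := hpos (α • x - y - (κ * starRingEnd ℂ (α ^ j)) • e)
  rw [h] at h0
  have hx := hpos x
  have he := hpos e
  have c1 : ‖α‖ ^ 2 * (inner ℂ x (D x)).re ≤ (inner ℂ x (D x)).re := by
    have : ‖α‖ ^ 2 ≤ 1 := pow_le_one₀ (norm_nonneg _) hα
    nlinarith
  have c2 : ‖(κ : ℂ) * starRingEnd ℂ (α ^ j)‖ ^ 2 * (inner ℂ e (D e)).re
      ≤ κ ^ 2 * (inner ℂ e (D e)).re := by
    apply mul_le_mul_of_nonneg_right _ he
    rw [norm_mul, mul_pow, Complex.norm_real, RCLike.norm_conj, norm_pow, Real.norm_eq_abs, sq_abs]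
    have h1 : (‖α‖ ^ j) ^ 2 ≤ 1 := by
      apply pow_le_one₀ (by positivity)
      exact pow_le_one₀ (norm_nonneg _) hα
    nlinarith [sq_nonneg κ]
  have c3 : (α * starRingEnd ℂ ((κ : ℂ) * starRingEnd ℂ (α ^ j)) * inner ℂ e (D x)
      - starRingEnd ℂ ((κ : ℂ) * starRingEnd ℂ (α ^ j)) * inner ℂ e (D y)).re
      = κ * (α ^ (j + 1) * inner ℂ e (D x) - α ^ j * inner ℂ e (D y)).re := by
    have : α * starRingEnd ℂ ((κ : ℂ) * starRingEnd ℂ (α ^ j)) * inner ℂ e (D x)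
      - starRingEnd ℂ ((κ : ℂ) * starRingEnd ℂ (α ^ j)) * inner ℂ e (D y)
      = (κ : ℂ) * (α ^ (j + 1) * inner ℂ e (D x) - α ^ j * inner ℂ e (D y)) := by
      rw [map_mul, Complex.conj_conj, Complex.conj_ofReal, pow_succ]
      ring
    rw [this, Complex.re_ofReal_mul]
  rw [c3] at h0
  linarith

/-- integrated inequality -/
theorem integrated_ineq (D : ℝ → H →L[ℂ] H) (f : ℝ → ℂ) (hDc : Continuous D) (hfc : Continuous f)
    (hDpos : ∀ t, (D t).IsPositive) (hf : ∀ t, ‖f t‖ ≤ 1)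
    (hS0 : ∀ u v : H, ∫ t in (0:ℝ)..(2 * Real.pi), inner ℂ v (D t u) = 2 * inner ℂ v u)
    (κ : ℝ) (j : ℕ) (x y e : H) :
    0 ≤ 2 * ‖x‖ ^ 2 + 2 * ‖y‖ ^ 2 + κ ^ 2 * (2 * ‖e‖ ^ 2)
      - 2 * (∫ t in (0:ℝ)..(2 * Real.pi), f t ^ 1 * inner ℂ y (D t x)).re
      - 2 * κ * ((∫ t in (0:ℝ)..(2 * Real.pi), f t ^ (j + 1) * inner ℂ e (D t x)).re
        - (∫ t in (0:ℝ)..(2 * Real.pi), f t ^ j * inner ℂ e (D t y)).re) := by
  have cont : ∀ (k : ℕ) (u v : H), Continuous fun t => f t ^ k * inner ℂ v (D t u) := by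
    intro k u v
    have : Continuous fun t => D t u := hDc.clm_apply continuous_const
    exact (hfc.pow k).mul (continuous_const.inner this)
  have cont0 : ∀ (u v : H), Continuous fun t => inner ℂ v (D t u) := by
    intro u v
    have : Continuous fun t => D t u := hDc.clm_apply continuous_const
    exact (continuous_const.inner this)
  have rei : ∀ g : ℝ → ℂ, Continuous g →
      (∫ t in (0:ℝ)..(2 * Real.pi), g t).re = ∫ t in (0:ℝ)..(2 * Real.pi), (g t).re := by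
    intro g hg
    have := Complex.reCLM.intervalIntegral_comp_comm (hg.intervalIntegrable (μ := MeasureTheory.volume) 0 (2 * Real.pi))
    simpa using this.symm
  have hself : ∀ u : H, 2 * ‖u‖ ^ 2 = ∫ t in (0:ℝ)..(2 * Real.pi), (inner ℂ u (D t u)).re := by
    intro u
    rw [← rei _ (cont0 u u), hS0 u u, inner_self_eq_norm_sq_to_K]
    simp [Complex.mul_re, ← Complex.ofReal_pow]
  rw [hself x, hself y, hself e, rei _ (cont 1 x y), rei _ (cont (j+1) x e), rei _ (cont j y e)]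
  have ii : ∀ g : ℝ → ℂ, Continuous g → IntervalIntegrable (fun t => (g t).re) MeasureTheory.volume 0 (2 * Real.pi) := by
    intro g hg
    exact (Complex.continuous_re.comp hg).intervalIntegrable _ _
  rw [← intervalIntegral.integral_const_mul (κ ^ 2), ← intervalIntegral.integral_const_mul 2,
    ← intervalIntegral.integral_sub (ii _ (cont (j+1) x e)) (ii _ (cont j y e)),
    ← intervalIntegral.integral_const_mul (2 * κ),
    ← intervalIntegral.integral_add (ii _ (cont0 x x)) (ii _ (cont0 y y)),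
    ← intervalIntegral.integral_add ((ii _ (cont0 x x)).add (ii _ (cont0 y y))) ((ii _ (cont0 e e)).const_mul _),
    ← intervalIntegral.integral_sub (((ii _ (cont0 x x)).add (ii _ (cont0 y y))).add ((ii _ (cont0 e e)).const_mul _)) ((ii _ (cont 1 x y)).const_mul _),
    ← intervalIntegral.integral_sub ((((ii _ (cont0 x x)).add (ii _ (cont0 y y))).add ((ii _ (cont0 e e)).const_mul _)).sub ((ii _ (cont 1 x y)).const_mul _)) (((ii _ (cont (j+1) x e)).sub (ii _ (cont j y e))).const_mul _)]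
  apply intervalIntegral.integral_nonneg (by positivity)
  intro t _
  have hsa : ∀ u v : H, inner ℂ v (D t u) = starRingEnd ℂ (inner ℂ u (D t v)) := by
    intro u v
    have h2 : inner ℂ (D t v) u = inner ℂ v (D t u) := by
      have := (hDpos t).inner_left_eq_inner_right v u
      simpa using this
    rw [← h2, inner_conj_symm]
  have hp : ∀ u : H, 0 ≤ (inner ℂ u (D t u)).re := by
    intro u
    have := (hDpos t).re_inner_nonneg_right u
    simpa using this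
  have := pointwise_ineq (D t) hsa hp (f t) (hf t) κ j x y e
  simp only [pow_one, Complex.sub_re] at this ⊢
  linarith

/-- the telescoping step for one near-extremal vector -/
theorem telescoped [CompleteSpace H] (B : H →L[ℂ] H) (D : ℝ → H →L[ℂ] H) (f : ℝ → ℂ)
    (N : ℕ → H →L[ℂ] H) (C : ℝ) (hDc : Continuous D) (hfc : Continuous f)
    (hDpos : ∀ t, (D t).IsPositive) (hf : ∀ t, ‖f t‖ ≤ 1)
    (hS0 : ∀ u v : H, ∫ t in (0:ℝ)..(2 * Real.pi), inner ℂ v (D t u) = 2 * inner ℂ v u)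
    (hS : ∀ (j : ℕ) (u v : H), ∫ t in (0:ℝ)..(2 * Real.pi), f t ^ j * inner ℂ v (D t u) =
      inner ℂ v ((B ^ j) u) + inner ℂ (N j v) u)
    (hcomm : ∀ j, Commute (N j) B) (hN : ∀ j, ‖N j‖ ≤ C) (hB : ∀ j, ‖B ^ j‖ ≤ C)
    (hC : 0 ≤ C) (K : ℝ) (hK : 2 < K) (x y r : H) (hx : ‖x‖ ≤ 1) (hy : ‖y‖ ≤ 1)
    (hBx : B x = (K : ℂ) • y) (hBy : ContinuousLinearMap.adjoint B y = (K : ℂ) • x + r) (n : ℕ) :
    ∃ T : ℝ, 0 ≤ T ∧ T ≤ 1 - (K⁻¹) ^ n ∧
    0 ≤ T / (K - 1) * (2 * ‖x‖ ^ 2 + 2 * ‖y‖ ^ 2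
        - 2 * (∫ t in (0:ℝ)..(2 * Real.pi), f t ^ 1 * inner ℂ y (D t x)).re)
      - 2 * (K⁻¹) ^ n * (inner ℂ (N (n + 1) ((B ^ n) y)) x).re
      + 2 * (inner ℂ (N 1 y) x).re + 2 * (C * C * ‖r‖) * T := by
  have hKpos : 0 < K := by linarith
  have hK1 : 0 < K - 1 := by linarith
  have ha0 : 0 < K⁻¹ := inv_pos.mpr hKpos
  have haK : K⁻¹ * K = 1 := inv_mul_cancel₀ hKpos.ne'
  have ha2 : 2 * K⁻¹ ≤ 1 := by
    have : K⁻¹ ≤ 2⁻¹ := inv_anti₀ (by norm_num) hK.le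
    linarith
  induction n with
  | zero =>
    refine ⟨0, le_rfl, by simp, ?_⟩
    simp
  | succ n ih =>
    obtain ⟨T, hT0, hT1, hT⟩ := ih
    have hpn : 0 < (K⁻¹) ^ n := by positivity
    have hps : (K⁻¹) ^ (n + 1) = (K⁻¹) ^ n * K⁻¹ := pow_succ _ _
    refine ⟨T + (K⁻¹) ^ (n + 1), by positivity, ?_, ?_⟩
    · rw [hps]; nlinarith
    -- the one-step inequality
    have hstep := integrated_ineq D f hDc hfc hDpos hf hS0 (K - 1) (n + 1) x y ((B ^ (n + 1)) y)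
    rw [hS (n + 1 + 1) x, hS (n + 1) y] at hstep
    have e1 : (B ^ (n + 1 + 1)) x = (K : ℂ) • ((B ^ (n + 1)) y) := by
      rw [pow_succ B (n+1), ContinuousLinearMap.mul_apply, hBx, map_smul]
    have e2 : N (n + 1) ((B ^ (n + 1)) y) = B (N (n + 1) ((B ^ n) y)) := by
      have h1 := hcomm (n + 1)
      have h2 : (B ^ (n + 1)) y = B ((B ^ n) y) := by
        rw [pow_succ' B n, ContinuousLinearMap.mul_apply]
      rw [h2, ← ContinuousLinearMap.mul_apply, h1.eq, ContinuousLinearMap.mul_apply]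
    have e3 : inner ℂ (N (n + 1) ((B ^ (n + 1)) y)) y
        = (K : ℂ) * inner ℂ (N (n + 1) ((B ^ n) y)) x + inner ℂ (N (n + 1) ((B ^ n) y)) r := by
      rw [e2, ← ContinuousLinearMap.adjoint_inner_right, hBy, inner_add_right, inner_smul_right]
    rw [e1, e3, inner_smul_right, inner_self_eq_norm_sq_to_K] at hstep
    have herr : |(inner ℂ (N (n + 1) ((B ^ n) y)) r).re| ≤ C * C * ‖r‖ := by
      calc |(inner ℂ (N (n + 1) ((B ^ n) y)) r).re| ≤ ‖inner ℂ (N (n + 1) ((B ^ n) y)) r‖ :=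
            Complex.abs_re_le_norm _
        _ ≤ ‖N (n + 1) ((B ^ n) y)‖ * ‖r‖ := norm_inner_le_norm _ _
        _ ≤ (C * C) * ‖r‖ := by
            apply mul_le_mul_of_nonneg_right _ (norm_nonneg _)
            calc ‖N (n + 1) ((B ^ n) y)‖ ≤ ‖N (n + 1)‖ * ‖(B ^ n) y‖ := (N (n+1)).le_opNorm _
              _ ≤ C * (C * 1) := by
                  apply mul_le_mul (hN _) _ (norm_nonneg _) hC
                  calc ‖(B ^ n) y‖ ≤ ‖B ^ n‖ * ‖y‖ := (B ^ n).le_opNorm _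
                    _ ≤ C * 1 := mul_le_mul (hB _) hy (norm_nonneg _) hC
              _ = C * C := by ring
    have herr' := neg_le_of_abs_le herr
    have herr'' := le_of_abs_le herr
    set E := (‖(B ^ (n + 1)) y‖ : ℝ) with hE
    set p := (inner ℂ (N (n + 1 + 1) ((B ^ (n + 1)) y)) x) with hp
    set q := (inner ℂ (N (n + 1) ((B ^ n) y)) x) with hq
    set ε := (inner ℂ (N (n + 1) ((B ^ n) y)) r) with hε
    set Q := (2 * ‖x‖ ^ 2 + 2 * ‖y‖ ^ 2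
        - 2 * (∫ t in (0:ℝ)..(2 * Real.pi), f t ^ 1 * inner ℂ y (D t x)).re) with hQ
    have hstep2 : 0 ≤ Q - 2 * (K - 1) * (p.re - K * q.re - ε.re) := by
      have r1 : ((K : ℂ) * ((E : ℂ) : ℂ) ^ 2 + p).re = K * E ^ 2 + p.re := by
        rw [Complex.add_re, ← Complex.ofReal_pow, Complex.re_ofReal_mul, Complex.ofReal_re]
      have r2 : (((E : ℂ) : ℂ) ^ 2 + ((K : ℂ) * q + ε)).re = E ^ 2 + (K * q.re + ε.re) := by
        rw [Complex.add_re, ← Complex.ofReal_pow, Complex.ofReal_re, Complex.add_re, Complex.re_ofReal_mul]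
      have hstep' : 0 ≤ 2 * ‖x‖ ^ 2 + 2 * ‖y‖ ^ 2 + (K - 1) ^ 2 * (2 * E ^ 2)
          - 2 * (∫ t in (0:ℝ)..(2 * Real.pi), f t ^ 1 * inner ℂ y (D t x)).re
          - 2 * (K - 1) * (((K : ℂ) * ((E : ℂ) : ℂ) ^ 2 + p).re
            - (((E : ℂ) : ℂ) ^ 2 + ((K : ℂ) * q + ε)).re) := hstep
      rw [r1, r2] at hstep'
      have : 0 ≤ Q + (K - 1) ^ 2 * (2 * E ^ 2)
          - 2 * (K - 1) * ((K * E ^ 2 + p.re) - (E ^ 2 + (K * q.re + ε.re))) := by
        rw [hQ]; linarith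
      nlinarith
    have hmul : 0 ≤ (K⁻¹) ^ (n + 1) / (K - 1) * (Q - 2 * (K - 1) * (p.re - K * q.re - ε.re)) :=
      mul_nonneg (by positivity) hstep2
    have hexp : (K⁻¹) ^ (n + 1) / (K - 1) * (Q - 2 * (K - 1) * (p.re - K * q.re - ε.re))
        = (K⁻¹) ^ (n + 1) / (K - 1) * Q - 2 * (K⁻¹) ^ (n + 1) * p.re
          + 2 * (K⁻¹) ^ n * q.re + 2 * (K⁻¹) ^ (n + 1) * ε.re := by
      have hne : K - 1 ≠ 0 := hK1.ne'
      rw [hps]
      have : (K⁻¹) ^ n * K⁻¹ / (K - 1) * (Q - 2 * (K - 1) * (p.re - K * q.re - ε.re))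
        = (K⁻¹) ^ n * K⁻¹ / (K - 1) * Q - ((K - 1) / (K - 1)) * (2 * ((K⁻¹) ^ n * K⁻¹) * p.re
          - 2 * (K⁻¹) ^ n * (K⁻¹ * K) * q.re - 2 * ((K⁻¹) ^ n * K⁻¹) * ε.re) := by ring
      rw [this, haK, div_self hne]
      ring
    rw [hexp] at hmul
    have hfin : (T + (K⁻¹) ^ (n + 1)) / (K - 1) * Q
        = T / (K - 1) * Q + (K⁻¹) ^ (n + 1) / (K - 1) * Q := by ring
    rw [hfin]
    have herr3 : 2 * (K⁻¹) ^ (n + 1) * ε.re ≤ 2 * (C * C * ‖r‖) * (K⁻¹) ^ (n + 1) := by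
      have : 0 < (K⁻¹) ^ (n + 1) := by positivity
      nlinarith
    linarith

/-- the inequality for one near-extremal vector, after letting `n → ∞` -/
theorem near_extremal [CompleteSpace H] (B : H →L[ℂ] H) (D : ℝ → H →L[ℂ] H) (f : ℝ → ℂ)
    (N : ℕ → H →L[ℂ] H) (C : ℝ) (hDc : Continuous D) (hfc : Continuous f)
    (hDpos : ∀ t, (D t).IsPositive) (hf : ∀ t, ‖f t‖ ≤ 1)
    (hS0 : ∀ u v : H, ∫ t in (0:ℝ)..(2 * Real.pi), inner ℂ v (D t u) = 2 * inner ℂ v u)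
    (hS : ∀ (j : ℕ) (u v : H), ∫ t in (0:ℝ)..(2 * Real.pi), f t ^ j * inner ℂ v (D t u) =
      inner ℂ v ((B ^ j) u) + inner ℂ (N j v) u)
    (hcomm : ∀ j, Commute (N j) B) (hN : ∀ j, ‖N j‖ ≤ C) (hB : ∀ j, ‖B ^ j‖ ≤ C)
    (hC : 0 ≤ C) (K : ℝ) (hK : 2 < K) (x y r : H) (hx : ‖x‖ ≤ 1) (hy : ‖y‖ ≤ 1)
    (hBx : B x = (K : ℂ) • y) (hBy : ContinuousLinearMap.adjoint B y = (K : ℂ) • x + r) :
    K * ‖y‖ ^ 2 ≤ 2 + C * C * ‖r‖ := by
  have hKpos : 0 < K := by linarith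
  have ha0 : 0 < K⁻¹ := inv_pos.mpr hKpos
  have hfin : ∀ n : ℕ, K * ‖y‖ ^ 2 ≤ 2 + C * C * ‖r‖ + (K⁻¹) ^ n * (C * C) := by
    intro n
    obtain ⟨T, hT0, hT1, hT⟩ := telescoped B D f N C hDc hfc hDpos hf hS0 hS hcomm hN hB hC K hK
      x y r hx hy hBx hBy n
    have hQ0 := integrated_ineq D f hDc hfc hDpos hf hS0 0 0 x y 0
    have hJ := hS 1 x y
    set J := ∫ t in (0:ℝ)..(2 * Real.pi), f t ^ 1 * inner ℂ y (D t x) with hJdef
    have hJre : J.re = K * ‖y‖ ^ 2 + (inner ℂ (N 1 y) x).re := by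
      have e0 : ((K : ℂ) * ((‖y‖ : ℝ) : ℂ) ^ 2).re = K * ‖y‖ ^ 2 := by
        rw [← Complex.ofReal_pow, Complex.re_ofReal_mul, Complex.ofReal_re]
      rw [hJ, pow_one, hBx, inner_smul_right, inner_self_eq_norm_sq_to_K, Complex.add_re]
      exact congrArg (fun z => z + (inner ℂ (N 1 y) x).re) e0
    have hp : |(inner ℂ (N (n + 1) ((B ^ n) y)) x).re| ≤ C * C := by
      calc |(inner ℂ (N (n + 1) ((B ^ n) y)) x).re| ≤ ‖inner ℂ (N (n + 1) ((B ^ n) y)) x‖ :=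
            Complex.abs_re_le_norm _
        _ ≤ ‖N (n + 1) ((B ^ n) y)‖ * ‖x‖ := norm_inner_le_norm _ _
        _ ≤ (C * C) * 1 := by
            apply mul_le_mul _ hx (norm_nonneg _) (by positivity)
            calc ‖N (n + 1) ((B ^ n) y)‖ ≤ ‖N (n + 1)‖ * ‖(B ^ n) y‖ := (N (n+1)).le_opNorm _
              _ ≤ C * (C * 1) := by
                  apply mul_le_mul (hN _) _ (norm_nonneg _) hC
                  calc ‖(B ^ n) y‖ ≤ ‖B ^ n‖ * ‖y‖ := (B ^ n).le_opNorm _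
                    _ ≤ C * 1 := mul_le_mul (hB _) hy (norm_nonneg _) hC
              _ = C * C := by ring
        _ = C * C := by ring
    have hp' := neg_le_of_abs_le hp
    have han : 0 < (K⁻¹) ^ n := by positivity
    have hQ : 0 ≤ 2 * ‖x‖ ^ 2 + 2 * ‖y‖ ^ 2 - 2 * J.re := by
      have : 0 ≤ 2 * ‖x‖ ^ 2 + 2 * ‖y‖ ^ 2 + 0 ^ 2 * (2 * ‖(0 : H)‖ ^ 2) - 2 * J.re
        - 2 * 0 * ((∫ t in (0:ℝ)..(2 * Real.pi), f t ^ (0 + 1) * inner ℂ (0 : H) (D t x)).re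
        - (∫ t in (0:ℝ)..(2 * Real.pi), f t ^ 0 * inner ℂ (0 : H) (D t y)).re) := hQ0
      linarith
    have hT2 : T / (K - 1) ≤ 1 := by
      rw [div_le_one (by linarith)]
      linarith
    have h1 : T / (K - 1) * (2 * ‖x‖ ^ 2 + 2 * ‖y‖ ^ 2 - 2 * J.re)
        ≤ 2 * ‖x‖ ^ 2 + 2 * ‖y‖ ^ 2 - 2 * J.re := by
      nlinarith
    have hx2 : ‖x‖ ^ 2 ≤ 1 := pow_le_one₀ (norm_nonneg _) hx
    have hy2 : ‖y‖ ^ 2 ≤ 1 := pow_le_one₀ (norm_nonneg _) hy
    have h2 : 2 * (C * C * ‖r‖) * T ≤ 2 * (C * C * ‖r‖) := by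
      have : 0 ≤ C * C * ‖r‖ := by positivity
      have : T ≤ 1 := by linarith
      nlinarith
    have h3 : -(2 * (K⁻¹) ^ n * (inner ℂ (N (n + 1) ((B ^ n) y)) x).re)
        ≤ 2 * ((K⁻¹) ^ n * (C * C)) := by
      nlinarith
    rw [hJre] at h1
    rw [hJre] at hT
    linarith
  have hlim : Filter.Tendsto (fun n : ℕ => 2 + C * C * ‖r‖ + (K⁻¹) ^ n * (C * C)) Filter.atTop
      (nhds (2 + C * C * ‖r‖ + 0 * (C * C))) := by
    apply Filter.Tendsto.const_add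
    apply Filter.Tendsto.mul_const
    apply tendsto_pow_atTop_nhds_zero_of_lt_one ha0.le
    exact inv_lt_one_of_one_lt₀ (by linarith)
  have := ge_of_tendsto' hlim hfin
  simpa using this

/-- the core inequality -/
theorem core [CompleteSpace H] (B : H →L[ℂ] H) (D : ℝ → H →L[ℂ] H) (f : ℝ → ℂ)
    (N : ℕ → H →L[ℂ] H) (C : ℝ) (hDc : Continuous D) (hfc : Continuous f)
    (hDpos : ∀ t, (D t).IsPositive) (hf : ∀ t, ‖f t‖ ≤ 1)
    (hS0 : ∀ u v : H, ∫ t in (0:ℝ)..(2 * Real.pi), inner ℂ v (D t u) = 2 * inner ℂ v u)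
    (hS : ∀ (j : ℕ) (u v : H), ∫ t in (0:ℝ)..(2 * Real.pi), f t ^ j * inner ℂ v (D t u) =
      inner ℂ v ((B ^ j) u) + inner ℂ (N j v) u)
    (hcomm : ∀ j, Commute (N j) B) (hN : ∀ j, ‖N j‖ ≤ C) (hB : ∀ j, ‖B ^ j‖ ≤ C) :
    ‖B‖ ≤ 2 := by
  by_contra hcon
  rw [not_le] at hcon
  set K : ℝ := ‖B‖ with hKdef
  have hKpos : 0 < K := by linarith
  have hC : 0 ≤ C := (norm_nonneg _).trans (hN 0)
  have key : ∀ b : ℝ, 0 ≤ b → b < K → b ^ 2 / K ≤ 2 + C * C * Real.sqrt (K ^ 2 - b ^ 2) := by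
    intro b hb0 hb
    obtain ⟨x, hx1, hxb⟩ := B.exists_lt_apply_of_lt_opNorm hb
    have hBxK : ‖B x‖ ≤ K := by
      calc ‖B x‖ ≤ ‖B‖ * ‖x‖ := B.le_opNorm x
        _ ≤ K * 1 := mul_le_mul le_rfl hx1.le (norm_nonneg _) hKpos.le
        _ = K := mul_one _
    set y : H := ((K⁻¹ : ℝ) : ℂ) • B x with hydef
    have hyn : ‖y‖ = K⁻¹ * ‖B x‖ := by
      rw [hydef, norm_smul, Complex.norm_real, Real.norm_eq_abs, abs_of_pos (inv_pos.mpr hKpos)]
    have hy1 : ‖y‖ ≤ 1 := by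
      rw [hyn]
      calc K⁻¹ * ‖B x‖ ≤ K⁻¹ * K := mul_le_mul_of_nonneg_left hBxK (inv_pos.mpr hKpos).le
        _ = 1 := inv_mul_cancel₀ hKpos.ne'
    have hKc : (K : ℂ) ≠ 0 := by exact_mod_cast hKpos.ne'
    have hBx : B x = (K : ℂ) • y := by
      rw [hydef, smul_smul, Complex.ofReal_inv, mul_inv_cancel₀ hKc, one_smul]
    set r : H := ContinuousLinearMap.adjoint B y - (K : ℂ) • x with hrdef
    have hBy : ContinuousLinearMap.adjoint B y = (K : ℂ) • x + r := by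
      rw [hrdef]; abel
    have hr2 : ‖r‖ ^ 2 ≤ K ^ 2 - b ^ 2 := by
      have h1 : ‖ContinuousLinearMap.adjoint B y‖ ≤ ‖B x‖ := by
        calc ‖ContinuousLinearMap.adjoint B y‖ ≤ ‖ContinuousLinearMap.adjoint B‖ * ‖y‖ :=
              ContinuousLinearMap.le_opNorm _ _
          _ = K * (K⁻¹ * ‖B x‖) := by rw [LinearIsometryEquiv.norm_map, hyn]
          _ = ‖B x‖ := by rw [← mul_assoc, mul_inv_cancel₀ hKpos.ne', one_mul]
      have h2 : (inner ℂ (ContinuousLinearMap.adjoint B y) ((K : ℂ) • x)).re = ‖B x‖ ^ 2 := by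
        have e0 : (K : ℂ) * (((K⁻¹ : ℝ) : ℂ) * ((‖B x‖ : ℝ) : ℂ) ^ 2) = ((‖B x‖ ^ 2 : ℝ) : ℂ) := by
          push_cast
          rw [← mul_assoc, mul_inv_cancel₀ hKc, one_mul]
        have e1 : inner ℂ y ((K : ℂ) • B x) = ((‖B x‖ ^ 2 : ℝ) : ℂ) := by
          rw [inner_smul_right, hydef, inner_smul_left, inner_self_eq_norm_sq_to_K,
            Complex.conj_ofReal]
          exact e0
        rw [ContinuousLinearMap.adjoint_inner_left, map_smul, e1, Complex.ofReal_re]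
      have h3 : ‖r‖ ^ 2 = ‖ContinuousLinearMap.adjoint B y‖ ^ 2
          - 2 * (inner ℂ (ContinuousLinearMap.adjoint B y) ((K : ℂ) • x)).re + ‖(K : ℂ) • x‖ ^ 2 := by
        rw [hrdef]
        exact @norm_sub_sq ℂ H _ _ _ (ContinuousLinearMap.adjoint B y) ((K : ℂ) • x)
      have h4 : ‖(K : ℂ) • x‖ ≤ K := by
        rw [norm_smul, Complex.norm_real, Real.norm_eq_abs, abs_of_pos hKpos]
        nlinarith [norm_nonneg x]
      have h5 : ‖(K : ℂ) • x‖ ^ 2 ≤ K ^ 2 := pow_le_pow_left₀ (norm_nonneg _) h4 2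
      have h6 : ‖ContinuousLinearMap.adjoint B y‖ ^ 2 ≤ ‖B x‖ ^ 2 :=
        pow_le_pow_left₀ (norm_nonneg _) h1 2
      have h7 : b ^ 2 ≤ ‖B x‖ ^ 2 := pow_le_pow_left₀ hb0 hxb.le 2
      rw [h3, h2]
      linarith
    have hne := near_extremal B D f N C hDc hfc hDpos hf hS0 hS hcomm hN hB hC K hcon
      x y r hx1.le hy1 hBx hBy
    have hr : ‖r‖ ≤ Real.sqrt (K ^ 2 - b ^ 2) := Real.le_sqrt_of_sq_le hr2
    have hyb : b ^ 2 / K ≤ K * ‖y‖ ^ 2 := by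
      rw [hyn, mul_pow]
      have : K * (K⁻¹ ^ 2 * ‖B x‖ ^ 2) = ‖B x‖ ^ 2 / K := by field_simp
      rw [this]
      exact div_le_div_of_nonneg_right (pow_le_pow_left₀ hb0 hxb.le 2) hKpos.le
    calc b ^ 2 / K ≤ K * ‖y‖ ^ 2 := hyb
      _ ≤ 2 + C * C * ‖r‖ := hne
      _ ≤ 2 + C * C * Real.sqrt (K ^ 2 - b ^ 2) := by
          have : 0 ≤ C * C := by positivity
          nlinarith
  -- let b → K
  have hl : Filter.Tendsto (fun b : ℝ => b ^ 2 / K) (nhdsWithin K (Set.Iio K)) (nhds (K ^ 2 / K)) := by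
    apply Filter.Tendsto.mono_left _ nhdsWithin_le_nhds
    exact (Continuous.tendsto (by fun_prop) K)
  have hr : Filter.Tendsto (fun b : ℝ => 2 + C * C * Real.sqrt (K ^ 2 - b ^ 2))
      (nhdsWithin K (Set.Iio K)) (nhds (2 + C * C * Real.sqrt (K ^ 2 - K ^ 2))) := by
    apply Filter.Tendsto.mono_left _ nhdsWithin_le_nhds
    exact (Continuous.tendsto (by fun_prop) K)
  have hle : K ^ 2 / K ≤ 2 + C * C * Real.sqrt (K ^ 2 - K ^ 2) := by
    apply le_of_tendsto_of_tendsto hl hr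
    have h0 : Set.Ioo 0 K ∈ nhdsWithin K (Set.Iio K) := Ioo_mem_nhdsLT hKpos
    filter_upwards [h0] with b hb
    exact key b hb.1.le hb.2
  have : K ^ 2 / K = K := by field_simp
  rw [this] at hle
  simp at hle
  linarith

end

end Vale.Agent.Lib.P123
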