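import Vale.Agent.Lib.P123.Defs

open Complex Polynomial

namespace Vale.Agent.Lib.P123

namespace CurveLe

theorem hasDerivAt_aux (h h1 h2 : ℝ → ℝ) (d1 : ∀ t, HasDerivAt h (h1 t) t)
    (d2 : ∀ t, HasDerivAt h1 (h2 t) t) (s r : ℝ) :
    HasDerivAt (fun r => Real.sin (s - r) * h1 r + Real.cos (s - r) * h r)
      (Real.sin (s - r) * (h r + h2 r)) r := by
  have e0 : HasDerivAt (fun r : ℝ => s - r) (-1) r := by
    simpa using (hasDerivAt_id r).const_sub s
  have e1 := (e0.sin).mul (d2 r)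
  have e2 := (e0.cos).mul (d1 r)
  have e3 := e1.add e2
  refine e3.congr_deriv ?_
  ring

theorem aux_right (h h1 h2 : ℝ → ℝ) (d1 : ∀ t, HasDerivAt h (h1 t) t)
    (d2 : ∀ t, HasDerivAt h1 (h2 t) t) (hpos : ∀ t, 0 ≤ h t + h2 t) {t s : ℝ} (h1' : t ≤ s)
    (h2' : s ≤ t + Real.pi) :
    Real.sin (s - t) * h1 t + Real.cos (s - t) * h t ≤ h s := by
  have hd := hasDerivAt_aux h h1 h2 d1 d2 s
  have hmono : MonotoneOn (fun r => Real.sin (s - r) * h1 r + Real.cos (s - r) * h r)
      (Set.Icc t s) := by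
    apply monotoneOn_of_deriv_nonneg (convex_Icc t s)
    · exact fun r _ => (hd r).continuousAt.continuousWithinAt
    · exact fun r _ => (hd r).differentiableAt.differentiableWithinAt
    · intro r hr
      rw [interior_Icc] at hr
      rw [(hd r).deriv]
      refine mul_nonneg ?_ (hpos r)
      exact Real.sin_nonneg_of_nonneg_of_le_pi (by linarith [hr.2]) (by linarith [hr.1])
  have := hmono (Set.left_mem_Icc.2 h1') (Set.right_mem_Icc.2 h1') h1'
  simpa using this

theorem aux_left (h h1 h2 : ℝ → ℝ) (d1 : ∀ t, HasDerivAt h (h1 t) t)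
    (d2 : ∀ t, HasDerivAt h1 (h2 t) t) (hpos : ∀ t, 0 ≤ h t + h2 t) {t s : ℝ} (h1' : s ≤ t)
    (h2' : t ≤ s + Real.pi) :
    Real.sin (s - t) * h1 t + Real.cos (s - t) * h t ≤ h s := by
  have hd := hasDerivAt_aux h h1 h2 d1 d2 s
  have hanti : AntitoneOn (fun r => Real.sin (s - r) * h1 r + Real.cos (s - r) * h r)
      (Set.Icc s t) := by
    apply antitoneOn_of_deriv_nonpos (convex_Icc s t)
    · exact fun r _ => (hd r).continuousAt.continuousWithinAt
    · exact fun r _ => (hd r).differentiableAt.differentiableWithinAt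
    · intro r hr
      rw [interior_Icc] at hr
      rw [(hd r).deriv]
      refine mul_nonpos_of_nonpos_of_nonneg ?_ (hpos r)
      exact Real.sin_nonpos_of_nonpos_of_neg_pi_le (by linarith [hr.1]) (by linarith [hr.2])
  have := hanti (Set.left_mem_Icc.2 h1') (Set.right_mem_Icc.2 h1') h1'
  simpa using this

theorem re_eq (h h1 : ℝ → ℝ) (t s : ℝ) :
    (exp (-(I * s)) * curve h h1 t).re =
      Real.sin (s - t) * h1 t + Real.cos (s - t) * h t := by
  have e1 : exp (-(I * s)) * curve h h1 t =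
      exp (((t - s : ℝ) : ℂ) * I) * (h t + I * h1 t) := by
    unfold curve
    rw [← mul_assoc, ← Complex.exp_add]
    congr 2
    push_cast
    ring
  rw [e1, Complex.exp_mul_I, ← Complex.ofReal_cos, ← Complex.ofReal_sin]
  have e2 : Real.cos (s - t) = Real.cos (t - s) := by
    rw [← Real.cos_neg, neg_sub]
  have e3 : Real.sin (s - t) = - Real.sin (t - s) := by
    rw [← Real.sin_neg, neg_sub]
  rw [e2, e3]
  simp only [Complex.mul_re, Complex.add_re, Complex.add_im, Complex.mul_im, Complex.ofReal_re,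
    Complex.ofReal_im, Complex.I_re, Complex.I_im]
  ring

end CurveLe

/-- the curve with support function `h` lies in all the half planes given by `h` -/
theorem curve_le_support (h h1 h2 : ℝ → ℝ) (d1 : ∀ t, HasDerivAt h (h1 t) t)
    (d2 : ∀ t, HasDerivAt h1 (h2 t) t)
    (hper : ∀ t, h (t + 2 * Real.pi) = h t)
    (hpos : ∀ t, 0 ≤ h t + h2 t) (t s : ℝ) :
    (exp (-(I * s)) * curve h h1 t).re ≤ h s := by
  have hP : Function.Periodic h (2 * Real.pi) := hper
  have hpi := Real.pi_pos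
  set n : ℤ := round ((s - t) / (2 * Real.pi)) with hn
  have h0 : |(s - t) / (2 * Real.pi) - n| ≤ 1 / 2 := abs_sub_round _
  have h3 : |(s - t) - n * (2 * Real.pi)| ≤ Real.pi := by
    have e : (s - t) - n * (2 * Real.pi) = ((s - t) / (2 * Real.pi) - n) * (2 * Real.pi) := by
      field_simp
    rw [e, abs_mul, abs_of_pos (by positivity : (0 : ℝ) < 2 * Real.pi)]
    nlinarith
  rw [abs_le] at h3
  have h4 : h (s - n * (2 * Real.pi)) = h s := hP.sub_int_mul_eq n
  have h5 : Real.sin (s - t) = Real.sin (s - n * (2 * Real.pi) - t) := by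
    rw [← Real.sin_sub_int_mul_two_pi (s - t) n]
    congr 1
    ring
  have h6 : Real.cos (s - t) = Real.cos (s - n * (2 * Real.pi) - t) := by
    rw [← Real.cos_sub_int_mul_two_pi (s - t) n]
    congr 1
    ring
  rw [CurveLe.re_eq, h5, h6, ← h4]
  rcases le_total t (s - n * (2 * Real.pi)) with h7 | h7
  · exact CurveLe.aux_right h h1 h2 d1 d2 hpos h7 (by linarith [h3.2])
  · exact CurveLe.aux_left h h1 h2 d1 d2 hpos h7 (by linarith [h3.1])

end Vale.Agent.Lib.P123
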