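import Mathlib

/-! Crouzeix's conjecture (P123): shared definitions. -/

namespace Vale.Agent.Lib.P123

/-- The numerical range of `A` (Mathlib's inner product is linear in the second argument). -/
def numRange {H : Type*} [NormedAddCommGroup H] [InnerProductSpace ℂ H] (A : H →L[ℂ] H) : Set ℂ :=
  {z | ∃ x : H, ‖x‖ = 1 ∧ inner ℂ x (A x) = z}

/-- The closed curve with support function `h` and `h1` the derivative of `h`. -/
noncomputable def curve (h h1 : ℝ → ℝ) (t : ℝ) : ℂ :=
  Complex.exp (Complex.I * t) * (h t + Complex.I * h1 t)

end Vale.Agent.Lib.P123
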