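import Vale.Agent.Lib.P123.Defs

open Complex Polynomial

namespace Vale.Agent.Lib.P123

/-- the rank one operator `x ↦ ⟪e₂, x⟫ e₁` has numerical range inside the disc of radius `1/2` -/
theorem numRange_rankOne {H : Type*} [NormedAddCommGroup H] [InnerProductSpace ℂ H]
    {e : Fin 2 → H} (he : Orthonormal ℂ e) (z : ℂ)
    (hz : z ∈ numRange ((innerSL ℂ (e 1)).smulRight (e 0))) : ‖z‖ ≤ 1 / 2 := by
  obtain ⟨x, hx, rfl⟩ := hz
  have h1 : inner ℂ x (((innerSL ℂ (e 1)).smulRight (e 0)) x) =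
      inner ℂ (e 1) x * inner ℂ x (e 0) := by
    rw [ContinuousLinearMap.smulRight_apply, inner_smul_right]
    rfl
  rw [h1, norm_mul]
  have h2 := he.sum_inner_products_le x (s := Finset.univ)
  rw [Fin.sum_univ_two, hx] at h2
  have h3 : ‖inner ℂ x (e 0)‖ = ‖inner ℂ (e 0) x‖ := norm_inner_symm x (e 0)
  rw [h3]
  nlinarith [sq_nonneg (‖inner ℂ (e 0) x‖ - ‖inner ℂ (e 1) x‖)]

/-- sharpness: some 2 x 2 matrix forces the constant to be at least 2, in every universe -/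
theorem lower.{u} (C : ℝ)
    (hC : ∀ (H : Type u) [NormedAddCommGroup H] [InnerProductSpace ℂ H] [CompleteSpace H]
      [Nontrivial H] (A : H →L[ℂ] H) (P : ℂ[X]),
      ‖aeval A P‖ ≤ C * sSup ((fun z => ‖P.eval z‖) '' numRange A)) : 2 ≤ C := by
  classical
  let e : Fin 2 → EuclideanSpace ℂ (ULift.{u} (Fin 2)) :=
    fun i => EuclideanSpace.single (ULift.up i) (1 : ℂ)
  have he : Orthonormal ℂ e :=
    (EuclideanSpace.orthonormal_single (𝕜 := ℂ) (ι := ULift.{u} (Fin 2))).comp ULift.up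
      ULift.up_injective
  let A : EuclideanSpace ℂ (ULift.{u} (Fin 2)) →L[ℂ] EuclideanSpace ℂ (ULift.{u} (Fin 2)) :=
    (innerSL ℂ (e 1)).smulRight (e 0)
  have h := hC (EuclideanSpace ℂ (ULift.{u} (Fin 2))) A X
  rw [aeval_X] at h
  have h1 : 1 ≤ ‖A‖ := by
    have h2 := A.le_opNorm (e 1)
    have h3 : A (e 1) = e 0 := by
      change (innerSL ℂ (e 1) (e 1)) • e 0 = e 0
      rw [innerSL_apply_apply, inner_self_eq_norm_sq_to_K, he.1 1]
      simp
    rw [h3, he.1 0, he.1 1, mul_one] at h2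
    exact h2
  have h4 : sSup ((fun z => ‖(X : ℂ[X]).eval z‖) '' numRange A) ≤ 1 / 2 := by
    refine Real.sSup_le ?_ (by norm_num)
    rintro _ ⟨z, hz, rfl⟩
    simpa using numRange_rankOne he z hz
  have h5 : 0 ≤ sSup ((fun z => ‖(X : ℂ[X]).eval z‖) '' numRange A) := by
    apply Real.sSup_nonneg
    rintro _ ⟨z, hz, rfl⟩
    exact norm_nonneg _
  by_contra hlt
  push Not at hlt
  rcases le_or_gt C 0 with h0 | h0
  · have := mul_nonpos_of_nonpos_of_nonneg h0 h5
    linarith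
  · have := mul_le_mul_of_nonneg_left h4 h0.le
    linarith

end Vale.Agent.Lib.P123
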