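import Vale.Agent.Lib.P123.Defs
import Vale.Agent.Lib.P123.Coercive

open Complex Polynomial

namespace Vale.Agent.Lib.P123

/-- the derivative of the curve -/
theorem hasDerivAt_curve' (h h1 h2 : ℝ → ℝ) (d1 : ∀ t, HasDerivAt h (h1 t) t)
    (d2 : ∀ t, HasDerivAt h1 (h2 t) t) (t : ℝ) :
    HasDerivAt (curve h h1) (I * exp (I * t) * (h t + h2 t)) t := by
  have e0 : HasDerivAt (fun t : ℝ => I * (t : ℂ)) (I * 1) t :=
    ((hasDerivAt_id t).ofReal_comp).const_mul I
  have e1 : HasDerivAt (fun t : ℝ => exp (I * (t : ℂ))) (exp (I * t) * (I * 1)) t := e0.cexp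
  have e2 : HasDerivAt (fun t : ℝ => (h t : ℂ) + I * (h1 t : ℂ)) ((h1 t : ℂ) + I * (h2 t : ℂ)) t :=
    ((d1 t).ofReal_comp).add (((d2 t).ofReal_comp).const_mul I)
  have e3 := e1.mul e2
  unfold curve
  refine e3.congr_deriv ?_
  linear_combination (exp (I * t)) * h1 t * I_sq

/-- two-sided inverse computes `Ring.inverse` -/
theorem ringInverse_eq {R : Type*} [Ring R] {x y : R} (h1 : x * y = 1) (h2 : y * x = 1) :
    Ring.inverse x = y := by
  have := Ring.inverse_unit (⟨x, y, h1, h2⟩ : Rˣ)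
  simpa using this

section abstract

variable {R : Type*} [NormedRing R] [NormedAlgebra ℂ R] [CompleteSpace R]

/-- the family of operators of the homotopy -/
noncomputable def fam (σ : ℝ → ℂ) (z0 : ℂ) (X : R) (s t : ℝ) : R :=
  (σ t - z0) • (1 : R) - (s : ℂ) • X

omit [CompleteSpace R] in
theorem fam_comm (σ : ℝ → ℂ) (z0 : ℂ) (X : R) (s t : ℝ) : Commute (fam σ z0 X s t) X := by
  unfold fam
  refine Commute.sub_left ?_ ?_
  · exact (Commute.one_left X).smul_left _
  · exact (Commute.refl X).smul_left _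

omit [NormedAlgebra ℂ R] [CompleteSpace R] in
/-- the inverse commutes -/
theorem inv_comm {T X : R} (hT : IsUnit T) (hc : Commute T X) :
    Commute (Ring.inverse T) X := by
  obtain ⟨u, rfl⟩ := hT
  rw [Ring.inverse_unit]
  exact hc.units_inv_left

theorem cont_inv (σ : ℝ → ℂ) (z0 : ℂ) (X : R) (hσ : Continuous σ) (s : ℝ)
    (hU : ∀ t, IsUnit (fam σ z0 X s t)) :
    Continuous fun t => Ring.inverse (fam σ z0 X s t) := by
  rw [continuous_iff_continuousAt]
  intro t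
  obtain ⟨u, hu⟩ := hU t
  have h1 : ContinuousAt Ring.inverse (fam σ z0 X s t) := by
    rw [← hu]; exact NormedRing.inverse_continuousAt u
  have h2 : ContinuousAt (fun t => fam σ z0 X s t) t := by
    unfold fam
    fun_prop
  exact ContinuousAt.comp (f := fun t => fam σ z0 X s t) h1 h2

theorem deriv_inv (σ σ' : ℝ → ℂ) (z0 : ℂ) (X : R) (hσ : ∀ t, HasDerivAt σ (σ' t) t) (s : ℝ)
    (hU : ∀ t, IsUnit (fam σ z0 X s t)) (t : ℝ) :
    HasDerivAt (fun t => Ring.inverse (fam σ z0 X s t))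
      (-(σ' t • (Ring.inverse (fam σ z0 X s t) * Ring.inverse (fam σ z0 X s t)))) t := by
  obtain ⟨u, hu⟩ := hU t
  have h1 : HasFDerivAt (𝕜 := ℝ) Ring.inverse
      (-ContinuousLinearMap.mulLeftRight ℝ R (↑u⁻¹) (↑u⁻¹)) (fam σ z0 X s t) := by
    rw [← hu]; exact hasFDerivAt_ringInverse u
  have h2 : HasDerivAt (fun t => fam σ z0 X s t) (σ' t • (1 : R)) t := by
    unfold fam
    exact (((hσ t).sub_const z0).smul_const (1 : R)).sub_const _
  have h3 := h1.comp_hasDerivAt t h2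
  refine h3.congr_deriv ?_
  rw [← hu, Ring.inverse_unit]
  simp

theorem int_sq (σ σ' : ℝ → ℂ) (z0 : ℂ) (X : R) (hσ : ∀ t, HasDerivAt σ (σ' t) t)
    (hc : Continuous σ') (hper : σ (2 * Real.pi) = σ 0) (s : ℝ)
    (hU : ∀ t, IsUnit (fam σ z0 X s t)) :
    ∫ t in (0:ℝ)..(2 * Real.pi),
      σ' t • (Ring.inverse (fam σ z0 X s t) * Ring.inverse (fam σ z0 X s t)) = 0 := by
  have hσc : Continuous σ := continuous_iff_continuousAt.2 fun t => (hσ t).continuousAt
  have hi := cont_inv σ z0 X hσc s hU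
  have h1 := intervalIntegral.integral_eq_sub_of_hasDerivAt
    (a := 0) (b := 2 * Real.pi)
    (fun t _ => deriv_inv σ σ' z0 X hσ s hU t)
    (Continuous.intervalIntegrable (by fun_prop) _ _)
  rw [intervalIntegral.integral_neg] at h1
  have h2 : fam σ z0 X s (2 * Real.pi) = fam σ z0 X s 0 := by
    unfold fam; rw [hper]
  rw [h2, sub_self, neg_eq_zero] at h1
  exact h1

omit [CompleteSpace R] in
/-- second order expansion of the inverse -/
theorem inv_expand {T S X : R} (a : ℂ) (hT : IsUnit T) (hS : IsUnit S) (hTX : Commute T X)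
    (hSX : Commute S X) (h : S - T = a • X) :
    Ring.inverse T - Ring.inverse S = a • (X * (Ring.inverse S * Ring.inverse S)) +
      (a ^ 2) • (Ring.inverse T * X * (Ring.inverse S * X) * Ring.inverse S) := by
  have c1 := inv_comm hT hTX
  have c2 := inv_comm hS hSX
  set P := Ring.inverse T with hP
  set Q := Ring.inverse S with hQ
  have hTP : P * T = 1 := Ring.inverse_mul_cancel T hT
  have hSQ : S * Q = 1 := Ring.mul_inverse_cancel S hS
  have e1 : P - Q = a • (P * X * Q) := by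
    calc P - Q = P * (S * Q) - (P * T) * Q := by rw [hTP, hSQ, mul_one, one_mul]
      _ = P * (S - T) * Q := by noncomm_ring
      _ = a • (P * X * Q) := by rw [h]; simp
  have e2 : P * X * Q = X * (Q * Q) + a • (P * X * (Q * X) * Q) := by
    have e3 : P = Q + a • (P * X * Q) := by rw [← e1]; abel
    calc P * X * Q = (Q + a • (P * X * Q)) * X * Q := by rw [← e3]
      _ = Q * X * Q + a • (P * X * (Q * X) * Q) := by
        rw [add_mul, add_mul]
        congr 1
        simp only [smul_mul_assoc, mul_assoc]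
      _ = X * (Q * Q) + a • (P * X * (Q * X) * Q) := by
        rw [c2.eq, mul_assoc]
  rw [e1, e2, smul_add, smul_smul, sq]

/-- the homotopy step -/
theorem step_bound (σ σ' : ℝ → ℂ) (z0 : ℂ) (X : R) (hσ : ∀ t, HasDerivAt σ (σ' t) t)
    (hc : Continuous σ') (hper : σ (2 * Real.pi) = σ 0) (s r : ℝ)
    (hUs : ∀ t, IsUnit (fam σ z0 X s t)) (hUr : ∀ t, IsUnit (fam σ z0 X r t)) (K L : ℝ)
    (hL : ∀ t ∈ Set.Icc 0 (2 * Real.pi), ‖σ' t‖ ≤ L)
    (hKs : ∀ t, ‖Ring.inverse (fam σ z0 X s t)‖ ≤ K)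
    (hKr : ∀ t, ‖Ring.inverse (fam σ z0 X r t)‖ ≤ K) :
    ‖(∫ t in (0:ℝ)..(2 * Real.pi), σ' t • Ring.inverse (fam σ z0 X s t)) -
      ∫ t in (0:ℝ)..(2 * Real.pi), σ' t • Ring.inverse (fam σ z0 X r t)‖ ≤
      (L * (K * ‖X‖ * (K * ‖X‖) * K)) * (2 * Real.pi) * (s - r) ^ 2 := by
  have hσc : Continuous σ := continuous_iff_continuousAt.2 fun t => (hσ t).continuousAt
  have hi := cont_inv σ z0 X hσc s hUs
  have hj := cont_inv σ z0 X hσc r hUr
  have hK0 : 0 ≤ K := (norm_nonneg _).trans (hKs 0)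
  have hpi := Real.pi_pos
  have hL0 : 0 ≤ L := (norm_nonneg _).trans (hL 0 ⟨le_rfl, by linarith⟩)
  set P := fun t => Ring.inverse (fam σ z0 X s t) with hP
  set Q := fun t => Ring.inverse (fam σ z0 X r t) with hQ
  have e1 : ∀ t, P t - Q t = ((s - r : ℝ) : ℂ) • (X * (Q t * Q t)) +
      (((s - r : ℝ) : ℂ) ^ 2) • (P t * X * (Q t * X) * Q t) := by
    intro t
    refine inv_expand _ (hUs t) (hUr t) (fam_comm _ _ _ _ _) (fam_comm _ _ _ _ _) ?_
    unfold fam
    push_cast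
    rw [sub_smul (s : ℂ) (r : ℂ) X]
    abel
  have hI : (∫ t in (0:ℝ)..(2 * Real.pi), σ' t • Ring.inverse (fam σ z0 X s t)) -
      (∫ t in (0:ℝ)..(2 * Real.pi), σ' t • Ring.inverse (fam σ z0 X r t)) =
      ∫ t in (0:ℝ)..(2 * Real.pi), (σ' t • P t - σ' t • Q t) :=
    (intervalIntegral.integral_sub (f := fun t => σ' t • P t) (g := fun t => σ' t • Q t)
      ((hc.smul hi).intervalIntegrable _ _) ((hc.smul hj).intervalIntegrable _ _)).symm
  rw [hI]
  have e2 : ∀ t, σ' t • P t - σ' t • Q t =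
      ((s - r : ℝ) : ℂ) • (X * (σ' t • (Q t * Q t))) +
      (((s - r : ℝ) : ℂ) ^ 2) • (σ' t • (P t * X * (Q t * X) * Q t)) := by
    intro t
    rw [← smul_sub, e1 t, smul_add]
    congr 1
    · rw [mul_smul_comm, smul_comm]
    · rw [smul_comm]
  have e3 : (∫ t in (0:ℝ)..(2 * Real.pi), (σ' t • P t - σ' t • Q t)) =
      ∫ t in (0:ℝ)..(2 * Real.pi),
        (((s - r : ℝ) : ℂ) ^ 2) • (σ' t • (P t * X * (Q t * X) * Q t)) := by
    rw [intervalIntegral.integral_congr fun t _ => e2 t,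
      intervalIntegral.integral_add (Continuous.intervalIntegrable (by fun_prop) _ _)
        (Continuous.intervalIntegrable (by fun_prop) _ _)]
    have h0 : (∫ t in (0:ℝ)..(2 * Real.pi),
        ((s - r : ℝ) : ℂ) • (X * (σ' t • (Q t * Q t)))) = 0 := by
      rw [intervalIntegral.integral_smul]
      have h1 : (∫ t in (0:ℝ)..(2 * Real.pi), X * (σ' t • (Q t * Q t))) =
          X * ∫ t in (0:ℝ)..(2 * Real.pi), σ' t • (Q t * Q t) := by
        exact (ContinuousLinearMap.mul ℝ R X).intervalIntegral_comp_comm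
          (Continuous.intervalIntegrable (by fun_prop) _ _)
      rw [h1, int_sq σ σ' z0 X hσ hc hper r hUr, mul_zero, smul_zero]
    rw [h0, zero_add]
  rw [e3]
  have e4 : ∀ t ∈ Set.uIoc 0 (2 * Real.pi),
      ‖(((s - r : ℝ) : ℂ) ^ 2) • (σ' t • (P t * X * (Q t * X) * Q t))‖ ≤
        (s - r) ^ 2 * (L * (K * ‖X‖ * (K * ‖X‖) * K)) := by
    intro t ht
    rw [Set.uIoc_of_le (by positivity)] at ht
    rw [norm_smul, norm_pow, Complex.norm_real, Real.norm_eq_abs, sq_abs, norm_smul]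
    have a1 : ‖P t * X * (Q t * X) * Q t‖ ≤ K * ‖X‖ * (K * ‖X‖) * K := by
      refine (norm_mul_le _ _).trans ?_
      refine mul_le_mul ?_ (hKr t) (norm_nonneg _) (by positivity)
      refine (norm_mul_le _ _).trans ?_
      refine mul_le_mul ?_ ?_ (norm_nonneg _) (by positivity)
      · refine (norm_mul_le _ _).trans ?_
        exact mul_le_mul_of_nonneg_right (hKs t) (norm_nonneg _)
      · refine (norm_mul_le _ _).trans ?_
        exact mul_le_mul_of_nonneg_right (hKr t) (norm_nonneg _)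
    have a2 := hL t ⟨ht.1.le, ht.2⟩
    gcongr
  have e5 := intervalIntegral.norm_integral_le_of_norm_le_const e4
  refine e5.trans (le_of_eq ?_)
  rw [sub_zero, abs_of_pos (by positivity)]
  ring

/-- a function on `[0,1]` with quadratic modulus takes equal values at the ends -/
theorem const_of_sq {E : Type*} [NormedAddCommGroup E] (G : ℝ → E) (K : ℝ)
    (h : ∀ s ∈ Set.Icc (0:ℝ) 1, ∀ r ∈ Set.Icc (0:ℝ) 1, ‖G s - G r‖ ≤ K * (s - r) ^ 2) :
    G 1 = G 0 := by
  have hK : 0 ≤ K := by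
    have := h 1 ⟨by norm_num, le_rfl⟩ 0 ⟨le_rfl, by norm_num⟩
    have h2 := norm_nonneg (G 1 - G 0)
    nlinarith
  have key : ∀ n : ℕ, 0 < n → ‖G 1 - G 0‖ ≤ K / n := by
    intro n hn
    have hnR : (0:ℝ) < n := by exact_mod_cast hn
    have h1 : G 1 - G 0 = ∑ i ∈ Finset.range n, (G (((i + 1 : ℕ) : ℝ) / n) - G ((i : ℝ) / n)) := by
      rw [Finset.sum_range_sub (fun i : ℕ => G ((i : ℝ) / n))]
      rw [div_self hnR.ne']
      simp
    rw [h1]
    refine (norm_sum_le _ _).trans ?_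
    have h2 : ∀ i ∈ Finset.range n,
        ‖G (((i + 1 : ℕ) : ℝ) / n) - G ((i : ℝ) / n)‖ ≤ K / n ^ 2 := by
      intro i hi
      have hi' : (i : ℝ) + 1 ≤ n := by exact_mod_cast Finset.mem_range.1 hi
      have hi0 : (0:ℝ) ≤ i := Nat.cast_nonneg i
      have h3 := h (((i + 1 : ℕ) : ℝ) / n) ⟨by positivity, by
        rw [div_le_one hnR]; push_cast; exact hi'⟩ ((i : ℝ) / n) ⟨by positivity, by
        rw [div_le_one hnR]; linarith⟩
      refine h3.trans (le_of_eq ?_)
      push_cast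
      field_simp
      ring
    refine (Finset.sum_le_sum h2).trans (le_of_eq ?_)
    rw [Finset.sum_const, Finset.card_range, nsmul_eq_mul]
    field_simp
  have h3 : ‖G 1 - G 0‖ ≤ 0 := by
    refine ge_of_tendsto (tendsto_const_div_atTop_nhds_zero_nat K) ?_
    filter_upwards [Filter.eventually_gt_atTop 0] with n hn using key n hn
  have h4 : G 1 - G 0 = 0 := norm_le_zero_iff.1 h3
  exact sub_eq_zero.1 h4

end abstract

/-- the scalar winding number -/
theorem scalar_winding (h h1 h2 : ℝ → ℝ)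
    (d1 : ∀ t, HasDerivAt h (h1 t) t) (d2 : ∀ t, HasDerivAt h1 (h2 t) t) (c2 : Continuous h2)
    (hper : ∀ t, h (t + 2 * Real.pi) = h t) (hper1 : ∀ t, h1 (t + 2 * Real.pi) = h1 t)
    (c : ℝ) (hc : 0 < c)
    (z0 : ℂ) (hz0 : ∀ t : ℝ, (exp (-(I * t)) * z0).re ≤ h t - c) :
    ∫ t in (0:ℝ)..(2 * Real.pi), (I * exp (I * t) * (h t + h2 t)) * (curve h h1 t - z0)⁻¹ =
      2 * Real.pi * I := by
  set w : ℝ → ℂ := fun t => exp (-(I * t)) * (curve h h1 t - z0) with hw
  have hexp : ∀ t : ℝ, exp (-(I * (t:ℂ))) * exp (I * t) = 1 := by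
    intro t; rw [← exp_add]; simp
  have hwre : ∀ t, c ≤ (w t).re := by
    intro t
    have e1 : w t = (h t + I * h1 t) - exp (-(I * t)) * z0 := by
      simp only [hw, curve]
      linear_combination ((h t : ℂ) + I * h1 t) * hexp t
    rw [e1]
    have := hz0 t
    simp only [sub_re, add_re, ofReal_re, mul_re, I_re, I_im, ofReal_im, zero_mul, one_mul]
    simp only [mul_re] at this
    linarith
  have hwslit : ∀ t, w t ∈ slitPlane := fun t => Or.inl (hc.trans_le (hwre t))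
  have hne : ∀ t, curve h h1 t - z0 ≠ 0 := by
    intro t h0
    have := hwre t
    simp only [hw, h0, mul_zero, zero_re] at this
    linarith
  have hdw : ∀ t : ℝ, HasDerivAt w (exp (-(I * t)) * (I * exp (I * t) * (h t + h2 t)) -
      I * w t) t := by
    intro t
    have e0 : HasDerivAt (fun t : ℝ => -(I * (t : ℂ))) (-(I * 1)) t :=
      (((hasDerivAt_id t).ofReal_comp).const_mul I).neg
    have e1 := e0.cexp
    have e2 := (hasDerivAt_curve' h h1 h2 d1 d2 t).sub_const z0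
    refine (e1.mul e2).congr_deriv ?_
    simp only [hw]
    ring
  have hlog : ∀ t : ℝ, HasDerivAt (fun t => log (w t))
      ((I * exp (I * t) * (h t + h2 t)) * (curve h h1 t - z0)⁻¹ - I) t := by
    intro t
    refine ((hdw t).clog_real (hwslit t)).congr_deriv ?_
    have h3 := hne t
    have h4 : exp (-(I * (t:ℂ))) ≠ 0 := exp_ne_zero _
    simp only [hw]
    field_simp
  have hcc : Continuous (curve h h1) :=
    continuous_iff_continuousAt.2 fun t => (hasDerivAt_curve' h h1 h2 d1 d2 t).continuousAt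
  have hhc : Continuous h := continuous_iff_continuousAt.2 fun t => (d1 t).continuousAt
  have hcont : Continuous fun t : ℝ =>
      (I * exp (I * t) * (h t + h2 t)) * (curve h h1 t - z0)⁻¹ := by
    refine Continuous.mul (by fun_prop) (Continuous.inv₀ (by fun_prop) hne)
  have h5 := intervalIntegral.integral_eq_sub_of_hasDerivAt
    (a := 0) (b := 2 * Real.pi) (fun t _ => hlog t)
    (Continuous.intervalIntegrable (hcont.sub continuous_const) _ _)
  have h6 : w (2 * Real.pi) = w 0 := by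
    have a1 : exp (I * ((2 * Real.pi : ℝ) : ℂ)) = 1 := by
      rw [← exp_two_pi_mul_I]; congr 1; push_cast; ring
    have a2 : exp (-(I * ((2 * Real.pi : ℝ) : ℂ))) = 1 := by
      rw [exp_neg, a1, inv_one]
    have a3 := hper 0
    have a4 := hper1 0
    rw [zero_add] at a3 a4
    simp only [hw, curve, a1, a2, a3, a4]
    simp
  rw [h6, sub_self, intervalIntegral.integral_sub (hcont.intervalIntegrable _ _)
    (continuous_const.intervalIntegrable _ _), intervalIntegral.integral_const] at h5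
  rw [sub_eq_zero.1 h5]
  rw [sub_zero, real_smul]
  push_cast
  ring

/-- winding number one for the operator resolvent -/
theorem integral_resolvent {H : Type*} [NormedAddCommGroup H] [InnerProductSpace ℂ H]
    [CompleteSpace H] (A : H →L[ℂ] H) (h h1 h2 : ℝ → ℝ)
    (d1 : ∀ t, HasDerivAt h (h1 t) t) (d2 : ∀ t, HasDerivAt h1 (h2 t) t) (c2 : Continuous h2)
    (hper : ∀ t, h (t + 2 * Real.pi) = h t) (hper1 : ∀ t, h1 (t + 2 * Real.pi) = h1 t)
    (c : ℝ) (hc : 0 < c)
    (hA : ∀ (t : ℝ) (u : H), (exp (-(I * t)) * inner ℂ u (A u)).re ≤ (h t - c) * ‖u‖ ^ 2)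
    (z0 : ℂ) (hz0 : ∀ t : ℝ, (exp (-(I * t)) * z0).re ≤ h t - c) :
    ∫ t in (0:ℝ)..(2 * Real.pi), (I * exp (I * t) * (h t + h2 t)) •
      Ring.inverse (curve h h1 t • (1 : H →L[ℂ] H) - A) = (2 * Real.pi * I : ℂ) • 1 := by
  set σ : ℝ → ℂ := curve h h1 with hσdef
  set σ' : ℝ → ℂ := fun t => I * exp (I * t) * (h t + h2 t) with hσ'
  set X : H →L[ℂ] H := A - z0 • 1 with hX
  have hdσ : ∀ t, HasDerivAt σ (σ' t) t := fun t => hasDerivAt_curve' h h1 h2 d1 d2 t
  have hhc : Continuous h := continuous_iff_continuousAt.2 fun t => (d1 t).continuousAt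
  have hσ'c : Continuous σ' := by
    simp only [hσ']; fun_prop
  have hσc : Continuous σ := continuous_iff_continuousAt.2 fun t => (hdσ t).continuousAt
  have hσper : σ (2 * Real.pi) = σ 0 := by
    have a1 : exp (I * ((2 * Real.pi : ℝ) : ℂ)) = 1 := by
      rw [← exp_two_pi_mul_I]; congr 1; push_cast; ring
    have a3 := hper 0
    have a4 := hper1 0
    rw [zero_add] at a3 a4
    simp only [hσdef, curve, a1, a3, a4]
    simp
  have hexp : ∀ t : ℝ, exp (-(I * (t:ℂ))) * exp (I * t) = 1 := by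
    intro t; rw [← exp_add]; simp
  have hnexp : ∀ t : ℝ, ‖exp (-(I * (t:ℂ)))‖ = 1 := by
    intro t
    have : -(I * (t:ℂ)) = ((-t : ℝ) : ℂ) * I := by push_cast; ring
    rw [this, norm_exp_ofReal_mul_I]
  have hcoer : ∀ s ∈ Set.Icc (0:ℝ) 1, ∀ (t : ℝ) (u : H),
      c * ‖u‖ ^ 2 ≤ (inner ℂ u ((exp (-(I * (t:ℂ))) • fam σ z0 X s t) u)).re := by
    intro s hs t u
    have e1 : (exp (-(I * (t:ℂ))) • fam σ z0 X s t) u =
        (exp (-(I * (t:ℂ))) * (σ t - (1 - s) * z0)) • u - (exp (-(I * (t:ℂ))) * s) • A u := by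
      simp only [fam, hX, ContinuousLinearMap.smul_apply, ContinuousLinearMap.sub_apply,
        ContinuousLinearMap.one_apply, smul_sub, smul_smul]
      module
    rw [e1, inner_sub_right, inner_smul_right, inner_smul_right, inner_self_eq_norm_sq_to_K]
    have e2 : exp (-(I * (t:ℂ))) * (σ t - (1 - s) * z0) * ((‖u‖ : ℝ) : ℂ) ^ 2 =
        (((h t * ‖u‖ ^ 2 : ℝ) : ℂ) + ((h1 t * ‖u‖ ^ 2 : ℝ) : ℂ) * I) -
          (((1 - s) * ‖u‖ ^ 2 : ℝ) : ℂ) * (exp (-(I * (t:ℂ))) * z0) := by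
      simp only [hσdef, curve]
      push_cast
      linear_combination ((h t : ℂ) + I * h1 t) * (‖u‖ : ℂ) ^ 2 * hexp t
    have e3 : exp (-(I * (t:ℂ))) * s * inner ℂ u (A u) =
        (s : ℂ) * (exp (-(I * (t:ℂ))) * inner ℂ u (A u)) := by ring
    have e4 : (inner ℂ u u : ℂ) = ((‖u‖ : ℝ) : ℂ) ^ 2 := by
      rw [inner_self_eq_norm_sq_to_K]; rfl
    have e5 := hA t u
    have e6 := hz0 t
    have e7 := sq_nonneg ‖u‖
    change c * ‖u‖ ^ 2 ≤ (exp (-(I * (t:ℂ))) * (σ t - (1 - s) * z0) * ((‖u‖ : ℝ) : ℂ) ^ 2 -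
      exp (-(I * (t:ℂ))) * s * inner ℂ u (A u)).re
    rw [e2, e3, sub_re, sub_re, re_ofReal_mul, re_ofReal_mul, add_re, ofReal_re, re_ofReal_mul,
      I_re, mul_zero, add_zero]
    have e8 : s * (exp (-(I * (t:ℂ))) * inner ℂ u (A u)).re ≤ s * ((h t - c) * ‖u‖ ^ 2) :=
      mul_le_mul_of_nonneg_left e5 hs.1
    have e9 : (1 - s) * ‖u‖ ^ 2 * (exp (-(I * (t:ℂ))) * z0).re ≤
        (1 - s) * ‖u‖ ^ 2 * (h t - c) :=
      mul_le_mul_of_nonneg_left e6 (mul_nonneg (by linarith [hs.2]) e7)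
    nlinarith
  have hunitexp : ∀ t : ℝ, ∀ T : H →L[ℂ] H, T = exp (I * (t:ℂ)) • (exp (-(I * (t:ℂ))) • T) := by
    intro t T
    rw [smul_smul, mul_comm, hexp, one_smul]
  have hU : ∀ s ∈ Set.Icc (0:ℝ) 1, ∀ t, IsUnit (fam σ z0 X s t) := by
    intro s hs t
    have h1 := isUnit_of_coercive _ c hc (hcoer s hs t)
    have h2 : IsUnit (exp (-(I * (t:ℂ)))) := (exp_ne_zero _).isUnit
    obtain ⟨v, hv⟩ := h1
    have h3 : v.1 * v⁻¹.1 = 1 := v.mul_inv
    have h4 : v⁻¹.1 * v.1 = 1 := v.inv_mul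
    refine ⟨⟨fam σ z0 X s t, exp (-(I * (t:ℂ))) • v⁻¹.1, ?_, ?_⟩, rfl⟩
    · rw [mul_smul_comm, ← smul_mul_assoc, ← hv, h3]
    · rw [smul_mul_assoc, ← mul_smul_comm, ← hv, h4]
  have hinv : ∀ s ∈ Set.Icc (0:ℝ) 1, ∀ t, ‖Ring.inverse (fam σ z0 X s t)‖ ≤ 1 / c := by
    intro s hs t
    have h1 := norm_inverse_le _ c hc (hcoer s hs t)
    have h2 : Ring.inverse (exp (-(I * (t:ℂ))) • fam σ z0 X s t) =
        exp (I * (t:ℂ)) • Ring.inverse (fam σ z0 X s t) := by
      apply ringInverse_eq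
      · rw [smul_mul_smul_comm, hexp, one_smul, Ring.mul_inverse_cancel _ (hU s hs t)]
      · rw [smul_mul_smul_comm, mul_comm, hexp, one_smul, Ring.inverse_mul_cancel _ (hU s hs t)]
    have h3 : ‖exp (I * (t:ℂ))‖ = 1 := by
      rw [mul_comm, norm_exp_ofReal_mul_I]
    rw [h2, norm_smul, h3, one_mul] at h1
    exact h1
  obtain ⟨L, hL⟩ : ∃ L, ∀ t ∈ Set.Icc 0 (2 * Real.pi), ‖σ' t‖ ≤ L := by
    obtain ⟨L, hL⟩ := isCompact_Icc.exists_bound_of_continuousOn
      (s := Set.Icc 0 (2 * Real.pi)) hσ'c.continuousOn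
    exact ⟨L, hL⟩
  have hG := const_of_sq
    (fun s => ∫ t in (0:ℝ)..(2 * Real.pi), σ' t • Ring.inverse (fam σ z0 X s t))
    ((L * (1 / c * ‖X‖ * (1 / c * ‖X‖) * (1 / c))) * (2 * Real.pi))
    (fun s hs r hr => step_bound σ σ' z0 X hdσ hσ'c hσper s r (hU s hs) (hU r hr) (1 / c) L hL
      (hinv s hs) (hinv r hr))
  have hfam1 : ∀ t, fam σ z0 X 1 t = σ t • (1 : H →L[ℂ] H) - A := by
    intro t
    simp only [fam, hX]
    push_cast
    module
  have hfam0 : ∀ t, Ring.inverse (fam σ z0 X 0 t) = (σ t - z0)⁻¹ • (1 : H →L[ℂ] H) := by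
    intro t
    have hne : σ t - z0 ≠ 0 := by
      intro h0
      have h3 := hz0 t
      have h4 : exp (-(I * (t:ℂ))) * z0 = h t + I * h1 t := by
        rw [← sub_eq_zero.1 h0]
        simp only [hσdef, curve]
        linear_combination ((h t : ℂ) + I * h1 t) * hexp t
      rw [h4] at h3
      simp at h3
      linarith
    have h2 : fam σ z0 X 0 t = (σ t - z0) • (1 : H →L[ℂ] H) := by
      simp [fam]
    rw [h2]
    apply ringInverse_eq
    · rw [smul_mul_smul_comm, mul_inv_cancel₀ hne, one_smul, one_mul]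
    · rw [smul_mul_smul_comm, inv_mul_cancel₀ hne, one_smul, one_mul]
  simp only [hfam1, hfam0] at hG
  rw [hG]
  have h7 : ∀ t, σ' t • (σ t - z0)⁻¹ • (1 : H →L[ℂ] H) =
      (σ' t * (σ t - z0)⁻¹) • (1 : H →L[ℂ] H) := fun t => smul_smul _ _ _
  rw [intervalIntegral.integral_congr fun t _ => h7 t, intervalIntegral.integral_smul_const,
    scalar_winding h h1 h2 d1 d2 c2 hper hper1 c hc z0 hz0]

end Vale.Agent.Lib.P123
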