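import Vale.Agent.Lib.P123.Core
import Vale.Agent.Lib.P123.Coercive
import Vale.Agent.Lib.P123.Winding

open Complex Polynomial

namespace Vale.Agent.Lib.P123

section
variable {H : Type*} [NormedAddCommGroup H] [InnerProductSpace ℂ H] [CompleteSpace H]

/-- derivative of the curve -/
theorem hasDerivAt_curve (h h1 h2 : ℝ → ℝ)
    (d1 : ∀ t, HasDerivAt h (h1 t) t) (d2 : ∀ t, HasDerivAt h1 (h2 t) t) (t : ℝ) :
    HasDerivAt (curve h h1) (I * exp (I * t) * (h t + h2 t)) t := by
  have e1 : HasDerivAt (fun s : ℝ => exp (I * (s : ℂ))) (exp (I * t) * (I * 1)) t :=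
    ((Complex.ofRealCLM.hasDerivAt (x := t)).const_mul I).cexp
  have e2 : HasDerivAt (fun s : ℝ => ((h s : ℝ) : ℂ)) ((h1 t : ℝ) : ℂ) t := (d1 t).ofReal_comp
  have e3 : HasDerivAt (fun s : ℝ => ((h1 s : ℝ) : ℂ)) ((h2 t : ℝ) : ℂ) t := (d2 t).ofReal_comp
  have hI : I * I = -1 := I_mul_I
  have e4 := e1.mul (e2.add (e3.const_mul I))
  refine HasDerivAt.congr_deriv e4 ?_
  simp only [Pi.add_apply]
  linear_combination (exp (I * t) * h1 t) * hI

theorem exp_neg_mul_curve (h h1 : ℝ → ℝ) (t : ℝ) :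
    exp (-(I * t)) * curve h h1 t = h t + I * h1 t := by
  rw [curve, ← mul_assoc, ← Complex.exp_add]
  simp

/-- the rotated operator -/
noncomputable def rotOp (A : H →L[ℂ] H) (h h1 : ℝ → ℝ) (t : ℝ) : H →L[ℂ] H :=
  exp (-(I * t)) • (curve h h1 t • (1 : H →L[ℂ] H) - A)

theorem rotOp_coercive (A : H →L[ℂ] H) (h h1 : ℝ → ℝ) (c : ℝ)
    (hA : ∀ (t : ℝ) (u : H), (exp (-(I * t)) * inner ℂ u (A u)).re ≤ (h t - c) * ‖u‖ ^ 2)
    (t : ℝ) (u : H) : c * ‖u‖ ^ 2 ≤ (inner ℂ u (rotOp A h h1 t u)).re := by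
  have e : inner ℂ u (rotOp A h h1 t u)
      = (h t + I * h1 t) * ((‖u‖ : ℝ) : ℂ) ^ 2 - exp (-(I * t)) * inner ℂ u (A u) := by
    rw [rotOp, ContinuousLinearMap.smul_apply, inner_smul_right, ContinuousLinearMap.sub_apply,
      inner_sub_right, ContinuousLinearMap.smul_apply, inner_smul_right,
      ContinuousLinearMap.one_apply, inner_self_eq_norm_sq_to_K, mul_sub, ← mul_assoc,
      exp_neg_mul_curve]
    rfl
  rw [e, Complex.sub_re, ← Complex.ofReal_pow]
  have e2 : (((h t : ℂ) + I * h1 t) * ((‖u‖ ^ 2 : ℝ) : ℂ)).re = h t * ‖u‖ ^ 2 := by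
    rw [Complex.re_mul_ofReal]
    simp
  rw [e2]
  have := hA t u
  linarith

theorem inverse_rotOp (A : H →L[ℂ] H) (h h1 : ℝ → ℝ) (c : ℝ) (hc : 0 < c)
    (hA : ∀ (t : ℝ) (u : H), (exp (-(I * t)) * inner ℂ u (A u)).re ≤ (h t - c) * ‖u‖ ^ 2)
    (t : ℝ) : IsUnit (curve h h1 t • (1 : H →L[ℂ] H) - A) ∧
      Ring.inverse (rotOp A h h1 t)
        = exp (I * t) • Ring.inverse (curve h h1 t • (1 : H →L[ℂ] H) - A) := by
  have hu := isUnit_of_coercive (rotOp A h h1 t) c hc (rotOp_coercive A h h1 c hA t)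
  have he : exp (I * t) * exp (-(I * t)) = 1 := by rw [← Complex.exp_add]; simp
  have he' : exp (-(I * t)) * exp (I * t) = 1 := by rw [← Complex.exp_add]; simp
  have hS : curve h h1 t • (1 : H →L[ℂ] H) - A = exp (I * t) • rotOp A h h1 t := by
    rw [rotOp, smul_smul, he, one_smul]
  have hu2 : IsUnit (curve h h1 t • (1 : H →L[ℂ] H) - A) := by
    obtain ⟨U, hU⟩ := hu
    refine ⟨⟨exp (I * t) • rotOp A h h1 t, exp (-(I * t)) • (↑U⁻¹ : H →L[ℂ] H), ?_, ?_⟩, ?_⟩
    · rw [smul_mul_smul_comm, he, ← hU, Units.mul_inv, one_smul]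
    · rw [smul_mul_smul_comm, he', ← hU, Units.inv_mul, one_smul]
    · exact hS.symm
  refine ⟨hu2, ?_⟩
  have hh : rotOp A h h1 t * (exp (I * t) • Ring.inverse (curve h h1 t • (1 : H →L[ℂ] H) - A)) = 1 := by
    rw [rotOp, smul_mul_smul_comm, he', one_smul, Ring.mul_inverse_cancel _ hu2]
  calc Ring.inverse (rotOp A h h1 t) = Ring.inverse (rotOp A h h1 t) *
        (rotOp A h h1 t * (exp (I * t) • Ring.inverse (curve h h1 t • (1 : H →L[ℂ] H) - A))) := by
        rw [hh, mul_one]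
    _ = _ := by rw [← mul_assoc, Ring.inverse_mul_cancel _ hu, one_mul]

theorem continuous_curve (h h1 h2 : ℝ → ℝ)
    (d1 : ∀ t, HasDerivAt h (h1 t) t) (d2 : ∀ t, HasDerivAt h1 (h2 t) t) :
    Continuous (curve h h1) :=
  continuous_iff_continuousAt.mpr fun t => (hasDerivAt_curve h h1 h2 d1 d2 t).continuousAt

/-- the weighted resolvent -/
noncomputable def Rk (A : H →L[ℂ] H) (h h1 h2 : ℝ → ℝ) (t : ℝ) : H →L[ℂ] H :=
  ((h t + h2 t : ℝ) : ℂ) • Ring.inverse (rotOp A h h1 t)

theorem continuous_rotOp (A : H →L[ℂ] H) (h h1 h2 : ℝ → ℝ)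
    (d1 : ∀ t, HasDerivAt h (h1 t) t) (d2 : ∀ t, HasDerivAt h1 (h2 t) t) :
    Continuous (rotOp A h h1) := by
  have := continuous_curve h h1 h2 d1 d2
  unfold rotOp
  fun_prop

theorem continuous_Rk (A : H →L[ℂ] H) (h h1 h2 : ℝ → ℝ)
    (d1 : ∀ t, HasDerivAt h (h1 t) t) (d2 : ∀ t, HasDerivAt h1 (h2 t) t) (c2 : Continuous h2)
    (c : ℝ) (hc : 0 < c)
    (hA : ∀ (t : ℝ) (u : H), (exp (-(I * t)) * inner ℂ u (A u)).re ≤ (h t - c) * ‖u‖ ^ 2) :
    Continuous (Rk A h h1 h2) := by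
  have hh : Continuous h := continuous_iff_continuousAt.mpr fun t => (d1 t).continuousAt
  have hT := continuous_rotOp A h h1 h2 d1 d2
  have hinv : Continuous fun t => Ring.inverse (rotOp A h h1 t) := by
    rw [continuous_iff_continuousAt]
    intro t
    have hu := isUnit_of_coercive (rotOp A h h1 t) c hc (rotOp_coercive A h h1 c hA t)
    obtain ⟨U, hU⟩ := hu
    have h1 := NormedRing.inverse_continuousAt U
    rw [hU] at h1
    exact ContinuousAt.comp h1 hT.continuousAt
  unfold Rk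
  have : Continuous fun t => ((h t + h2 t : ℝ) : ℂ) :=
    Complex.continuous_ofReal.comp (hh.add c2)
  exact this.smul hinv

/-- periodicity -/
theorem curve_periodic (h h1 : ℝ → ℝ)
    (hper : ∀ t, h (t + 2 * Real.pi) = h t) (hper1 : ∀ t, h1 (t + 2 * Real.pi) = h1 t) (t : ℝ) :
    curve h h1 (t + 2 * Real.pi) = curve h h1 t := by
  unfold curve
  rw [hper, hper1]
  congr 1
  push_cast
  rw [mul_add, Complex.exp_add]
  have : exp (I * (2 * Real.pi)) = 1 := by
    rw [mul_comm]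
    exact Complex.exp_two_pi_mul_I
  rw [this, mul_one]

theorem integral_pow_curve (h h1 h2 : ℝ → ℝ)
    (d1 : ∀ t, HasDerivAt h (h1 t) t) (d2 : ∀ t, HasDerivAt h1 (h2 t) t) (c2 : Continuous h2)
    (hper : ∀ t, h (t + 2 * Real.pi) = h t) (hper1 : ∀ t, h1 (t + 2 * Real.pi) = h1 t) (n : ℕ) :
    ∫ t in (0:ℝ)..(2 * Real.pi), curve h h1 t ^ n * (exp (I * t) * ((h t + h2 t : ℝ) : ℂ)) = 0 := by
  have hh : Continuous h := continuous_iff_continuousAt.mpr fun t => (d1 t).continuousAt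
  have hcont := continuous_curve h h1 h2 d1 d2
  have hd : ∀ t ∈ Set.uIcc (0:ℝ) (2 * Real.pi), HasDerivAt
      (fun t => curve h h1 t ^ (n + 1) / ((n + 1 : ℕ) * I))
      (curve h h1 t ^ n * (exp (I * t) * ((h t + h2 t : ℝ) : ℂ))) t := by
    intro t _
    have h3 := ((hasDerivAt_curve h h1 h2 d1 d2 t).pow (n + 1)).div_const (((n + 1 : ℕ) : ℂ) * I)
    refine HasDerivAt.congr_deriv h3 ?_
    have hn : ((n + 1 : ℕ) : ℂ) ≠ 0 := by exact_mod_cast Nat.succ_ne_zero n
    rw [div_eq_iff (mul_ne_zero hn I_ne_zero)]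
    push_cast
    ring
  have hint : IntervalIntegrable (fun t => curve h h1 t ^ n * (exp (I * t) * ((h t + h2 t : ℝ) : ℂ)))
      MeasureTheory.volume 0 (2 * Real.pi) := by
    apply Continuous.intervalIntegrable
    have : Continuous fun t => ((h t + h2 t : ℝ) : ℂ) :=
      Complex.continuous_ofReal.comp (hh.add c2)
    fun_prop
  rw [intervalIntegral.integral_eq_sub_of_hasDerivAt hd hint]
  have := curve_periodic h h1 hper hper1 0
  rw [zero_add] at this
  rw [this]
  ring

/-- Cauchy formula for monomials -/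
theorem integral_monomial (A : H →L[ℂ] H) (h h1 h2 : ℝ → ℝ)
    (d1 : ∀ t, HasDerivAt h (h1 t) t) (d2 : ∀ t, HasDerivAt h1 (h2 t) t) (c2 : Continuous h2)
    (hper : ∀ t, h (t + 2 * Real.pi) = h t) (hper1 : ∀ t, h1 (t + 2 * Real.pi) = h1 t)
    (c : ℝ) (hc : 0 < c)
    (hA : ∀ (t : ℝ) (u : H), (exp (-(I * t)) * inner ℂ u (A u)).re ≤ (h t - c) * ‖u‖ ^ 2)
    (z0 : ℂ) (hz0 : ∀ t : ℝ, (exp (-(I * t)) * z0).re ≤ h t - c) (n : ℕ) :
    ∫ t in (0:ℝ)..(2 * Real.pi), curve h h1 t ^ n • Rk A h h1 h2 t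
      = (2 * Real.pi : ℂ) • A ^ n := by
  have hcu := continuous_curve h h1 h2 d1 d2
  have hRk := continuous_Rk A h h1 h2 d1 d2 c2 c hc hA
  have hh : Continuous h := continuous_iff_continuousAt.mpr fun t => (d1 t).continuousAt
  have hρ : Continuous fun t => ((h t + h2 t : ℝ) : ℂ) :=
    Complex.continuous_ofReal.comp (hh.add c2)
  have hRe : ∀ t, Rk A h h1 h2 t = (exp (I * t) * ((h t + h2 t : ℝ) : ℂ)) •
      Ring.inverse (curve h h1 t • (1 : H →L[ℂ] H) - A) := by
    intro t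
    rw [Rk, (inverse_rotOp A h h1 c hc hA t).2, smul_smul, mul_comm]
  induction n with
  | zero =>
    have hw := integral_resolvent A h h1 h2 d1 d2 c2 hper hper1 c hc hA z0 hz0
    have e : ∀ t : ℝ, (I * exp (I * t) * (h t + h2 t)) •
      Ring.inverse (curve h h1 t • (1 : H →L[ℂ] H) - A) = I • Rk A h h1 h2 t := by
      intro t
      rw [hRe, smul_smul]
      congr 1
      push_cast
      ring
    simp_rw [e] at hw
    rw [intervalIntegral.integral_smul] at hw
    simp_rw [pow_zero, one_smul]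
    have := congrArg (fun X : H →L[ℂ] H => (-I) • X) hw
    simp only [smul_smul] at this
    have hI : (-I) * I = 1 := by rw [neg_mul, I_mul_I, neg_neg]
    have hI2 : (-I) * (2 * Real.pi * I) = 2 * Real.pi := by
      linear_combination (2 * Real.pi : ℂ) * hI
    rw [hI, hI2, one_smul] at this
    exact this
  | succ n ih =>
    have e : ∀ t : ℝ, curve h h1 t ^ (n + 1) • Rk A h h1 h2 t
        = (curve h h1 t ^ n * (exp (I * t) * ((h t + h2 t : ℝ) : ℂ))) • (1 : H →L[ℂ] H)
          + A * (curve h h1 t ^ n • Rk A h h1 h2 t) := by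
      intro t
      have hu := (inverse_rotOp A h h1 c hc hA t).1
      have h0 : (curve h h1 t • (1 : H →L[ℂ] H) - A) *
          Ring.inverse (curve h h1 t • (1 : H →L[ℂ] H) - A) = 1 := Ring.mul_inverse_cancel _ hu
      rw [sub_mul, smul_mul_assoc, one_mul, sub_eq_iff_eq_add] at h0
      rw [hRe, pow_succ, mul_smul_comm, mul_smul_comm, smul_smul]
      have : (curve h h1 t ^ n * curve h h1 t * (exp (I * t) * ((h t + h2 t : ℝ) : ℂ))) •
          Ring.inverse (curve h h1 t • (1 : H →L[ℂ] H) - A)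
        = (curve h h1 t ^ n * (exp (I * t) * ((h t + h2 t : ℝ) : ℂ))) •
          (curve h h1 t • Ring.inverse (curve h h1 t • (1 : H →L[ℂ] H) - A)) := by
        rw [smul_smul]
        congr 1
        ring
      rw [this, h0, smul_add, smul_smul]
    simp_rw [e]
    rw [intervalIntegral.integral_add]
    · rw [intervalIntegral.integral_smul_const, integral_pow_curve h h1 h2 d1 d2 c2 hper hper1 n,
        zero_smul, zero_add]
      have hii : IntervalIntegrable (fun t => curve h h1 t ^ n • Rk A h h1 h2 t)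
          MeasureTheory.volume 0 (2 * Real.pi) :=
        (Continuous.smul (hcu.pow n) hRk).intervalIntegrable _ _
      have hcm := (ContinuousLinearMap.mul ℂ (H →L[ℂ] H) A).intervalIntegral_comp_comm hii
      simp only [ContinuousLinearMap.mul_apply'] at hcm
      rw [hcm, ih, mul_smul_comm, ← pow_succ']
    · apply Continuous.intervalIntegrable
      fun_prop
    · apply Continuous.intervalIntegrable
      fun_prop

/-- Cauchy formula for polynomials -/
theorem integral_poly (A : H →L[ℂ] H) (h h1 h2 : ℝ → ℝ)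
    (d1 : ∀ t, HasDerivAt h (h1 t) t) (d2 : ∀ t, HasDerivAt h1 (h2 t) t) (c2 : Continuous h2)
    (hper : ∀ t, h (t + 2 * Real.pi) = h t) (hper1 : ∀ t, h1 (t + 2 * Real.pi) = h1 t)
    (c : ℝ) (hc : 0 < c)
    (hA : ∀ (t : ℝ) (u : H), (exp (-(I * t)) * inner ℂ u (A u)).re ≤ (h t - c) * ‖u‖ ^ 2)
    (z0 : ℂ) (hz0 : ∀ t : ℝ, (exp (-(I * t)) * z0).re ≤ h t - c) (Q : ℂ[X]) :
    ∫ t in (0:ℝ)..(2 * Real.pi), Q.eval (curve h h1 t) • Rk A h h1 h2 t
      = (2 * Real.pi : ℂ) • aeval A Q := by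
  have hcu := continuous_curve h h1 h2 d1 d2
  have hRk := continuous_Rk A h h1 h2 d1 d2 c2 c hc hA
  induction Q using Polynomial.induction_on' with
  | add p q hp hq =>
    simp_rw [eval_add, add_smul]
    rw [intervalIntegral.integral_add, hp, hq, map_add, smul_add]
    · exact ((p.continuous.comp hcu).smul hRk).intervalIntegrable _ _
    · exact ((q.continuous.comp hcu).smul hRk).intervalIntegrable _ _
  | monomial n a =>
    have e : ∀ t, (monomial n a).eval (curve h h1 t) • Rk A h h1 h2 t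
        = a • (curve h h1 t ^ n • Rk A h h1 h2 t) := by
      intro t
      rw [eval_monomial, mul_smul]
    simp_rw [e]
    rw [intervalIntegral.integral_smul,
      integral_monomial A h h1 h2 d1 d2 c2 hper hper1 c hc hA z0 hz0 n, aeval_monomial,
      ← Algebra.smul_def]
    exact smul_comm a (2 * Real.pi : ℂ) (A ^ n)

/-- bound on the curve -/
theorem bound_on_curve (A : H →L[ℂ] H) (h h1 h2 : ℝ → ℝ)
    (d1 : ∀ t, HasDerivAt h (h1 t) t) (d2 : ∀ t, HasDerivAt h1 (h2 t) t) (c2 : Continuous h2)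
    (hper : ∀ t, h (t + 2 * Real.pi) = h t) (hper1 : ∀ t, h1 (t + 2 * Real.pi) = h1 t)
    (hpos : ∀ t, 0 ≤ h t + h2 t) (c : ℝ) (hc : 0 < c)
    (hA : ∀ (t : ℝ) (u : H), (exp (-(I * t)) * inner ℂ u (A u)).re ≤ (h t - c) * ‖u‖ ^ 2)
    (z0 : ℂ) (hz0 : ∀ t : ℝ, (exp (-(I * t)) * z0).re ≤ h t - c)
    (P : ℂ[X]) (M : ℝ) (hM0 : 0 < M) (hM : ∀ t, ‖P.eval (curve h h1 t)‖ ≤ M) :
    ‖aeval A P‖ ≤ 2 * M := by
  have hcu := continuous_curve h h1 h2 d1 d2
  have hRk := continuous_Rk A h h1 h2 d1 d2 c2 c hc hA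
  have hh : Continuous h := continuous_iff_continuousAt.mpr fun t => (d1 t).continuousAt
  have hpi : (0:ℝ) < 2 * Real.pi := by positivity
  have hpic : (2 * Real.pi : ℂ) ≠ 0 := by exact_mod_cast hpi.ne'
  -- the normalised polynomial
  set Q : ℂ[X] := C ((M⁻¹ : ℝ) : ℂ) * P with hQ
  set f : ℝ → ℂ := fun t => Q.eval (curve h h1 t) with hf
  have hfc : Continuous f := Q.continuous.comp hcu
  have hf1 : ∀ t, ‖f t‖ ≤ 1 := by
    intro t
    simp only [hf, hQ, eval_mul, eval_C, norm_mul, Complex.norm_real, Real.norm_eq_abs]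
    rw [abs_of_pos (inv_pos.mpr hM0)]
    calc M⁻¹ * ‖P.eval (curve h h1 t)‖ ≤ M⁻¹ * M := by
          apply mul_le_mul_of_nonneg_left (hM t) (inv_pos.mpr hM0).le
      _ = 1 := inv_mul_cancel₀ hM0.ne'
  set B : H →L[ℂ] H := aeval A Q with hB
  -- bounds
  obtain ⟨C0, hC0⟩ := (isCompact_Icc (a := (0:ℝ)) (b := 2 * Real.pi)).exists_bound_of_continuousOn
    hRk.continuousOn
  have hbound : ∀ g : ℝ → ℂ, Continuous g → (∀ t, ‖g t‖ ≤ 1) →
      ‖(2 * Real.pi : ℂ)⁻¹ • ∫ t in (0:ℝ)..(2 * Real.pi), g t • Rk A h h1 h2 t‖ ≤ C0 := by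
    intro g _ hg1
    have b1 : ‖∫ t in (0:ℝ)..(2 * Real.pi), g t • Rk A h h1 h2 t‖ ≤ C0 * |2 * Real.pi - 0| := by
      apply intervalIntegral.norm_integral_le_of_norm_le_const
      intro t ht
      rw [Set.uIoc_of_le hpi.le] at ht
      have := hC0 t ⟨ht.1.le, ht.2⟩
      rw [norm_smul]
      calc ‖g t‖ * ‖Rk A h h1 h2 t‖ ≤ 1 * C0 :=
            mul_le_mul (hg1 t) this (norm_nonneg _) zero_le_one
        _ = C0 := one_mul _
    rw [sub_zero, abs_of_pos hpi] at b1
    rw [norm_smul, norm_inv]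
    have b2 : ‖(2 * Real.pi : ℂ)‖ = 2 * Real.pi := by
      have : (2 * Real.pi : ℂ) = ((2 * Real.pi : ℝ) : ℂ) := by push_cast; rfl
      rw [this, Complex.norm_real, Real.norm_eq_abs, abs_of_pos hpi]
    rw [b2]
    calc (2 * Real.pi)⁻¹ * ‖∫ t in (0:ℝ)..(2 * Real.pi), g t • Rk A h h1 h2 t‖
        ≤ (2 * Real.pi)⁻¹ * (C0 * (2 * Real.pi)) := by gcongr
      _ = C0 := by field_simp
  set N : ℕ → H →L[ℂ] H := fun j =>
    (2 * Real.pi : ℂ)⁻¹ • ∫ t in (0:ℝ)..(2 * Real.pi), (starRingEnd ℂ (f t)) ^ j • Rk A h h1 h2 t with hN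
  have hBj : ∀ j : ℕ, B ^ j = (2 * Real.pi : ℂ)⁻¹ •
      ∫ t in (0:ℝ)..(2 * Real.pi), f t ^ j • Rk A h h1 h2 t := by
    intro j
    have := integral_poly A h h1 h2 d1 d2 c2 hper hper1 c hc hA z0 hz0 (Q ^ j)
    simp_rw [eval_pow] at this
    rw [this, smul_smul, inv_mul_cancel₀ hpic, one_smul, map_pow]
  set D : ℝ → H →L[ℂ] H := fun t =>
    (2 * Real.pi : ℂ)⁻¹ • (Rk A h h1 h2 t + ContinuousLinearMap.adjoint (Rk A h h1 h2 t)) with hD
  have hDc : Continuous D := by
    have : Continuous fun t => ContinuousLinearMap.adjoint (Rk A h h1 h2 t) :=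
      (ContinuousLinearMap.adjoint (𝕜 := ℂ) (E := H) (F := H)).continuous.comp hRk
    exact (hRk.add this).const_smul ((2 * Real.pi : ℂ)⁻¹)
  have hDin : ∀ t (u v : H), inner ℂ v (D t u)
      = (2 * Real.pi : ℂ)⁻¹ * inner ℂ v (Rk A h h1 h2 t u)
        + (2 * Real.pi : ℂ)⁻¹ * inner ℂ (Rk A h h1 h2 t v) u := by
    intro t u v
    simp only [hD, ContinuousLinearMap.smul_apply, ContinuousLinearMap.add_apply, inner_smul_right,
      inner_add_right, ContinuousLinearMap.adjoint_inner_right]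
    ring
  have hRpos : ∀ t u, 0 ≤ (inner ℂ u (Rk A h h1 h2 t u)).re := by
    intro t u
    have := inverse_accretive (rotOp A h h1 t) c hc (rotOp_coercive A h h1 c hA t) u
    rw [Rk, ContinuousLinearMap.smul_apply, inner_smul_right, Complex.re_ofReal_mul]
    exact mul_nonneg (hpos t) this
  have hpic2 : (2 * Real.pi : ℂ)⁻¹ = (((2 * Real.pi)⁻¹ : ℝ) : ℂ) := by push_cast; rfl
  have hDpos : ∀ t, (D t).IsPositive := by
    intro t
    rw [ContinuousLinearMap.isPositive_def']
    constructor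
    · rw [ContinuousLinearMap.isSelfAdjoint_iff_isSymmetric]
      intro u v
      change inner ℂ (D t u) v = inner ℂ u (D t v)
      rw [← inner_conj_symm, hDin, hDin, map_add, map_mul, map_mul, inner_conj_symm,
        inner_conj_symm, hpic2, Complex.conj_ofReal]
      ring
    · intro u
      have h0 := hRpos t u
      have h1 : (inner ℂ u (D t u)).re = 2 * ((2 * Real.pi)⁻¹ * (inner ℂ u (Rk A h h1 h2 t u)).re) := by
        rw [hDin, hpic2, Complex.add_re, Complex.re_ofReal_mul, Complex.re_ofReal_mul]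
        have : (inner ℂ (Rk A h h1 h2 t u) u).re = (inner ℂ u (Rk A h h1 h2 t u)).re := by
          rw [← inner_conj_symm, Complex.conj_re]
        rw [this]
        ring
      have h2 : (D t).reApplyInnerSelf u = (inner ℂ u (D t u)).re := by
        have h3 : inner ℂ (D t u) u = starRingEnd ℂ (inner ℂ u (D t u)) :=
          (inner_conj_symm _ _).symm
        rw [ContinuousLinearMap.reApplyInnerSelf_apply, h3]
        exact Complex.conj_re _
      rw [h2, h1]
      positivity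
  have hS : ∀ (j : ℕ) (u v : H), ∫ t in (0:ℝ)..(2 * Real.pi), f t ^ j * inner ℂ v (D t u) =
      inner ℂ v ((B ^ j) u) + inner ℂ (N j v) u := by
    intro j u v
    have i1 : IntervalIntegrable (fun t => f t ^ j • Rk A h h1 h2 t)
        MeasureTheory.volume 0 (2 * Real.pi) := ((hfc.pow j).smul hRk).intervalIntegrable _ _
    have hfc' : Continuous fun t => (starRingEnd ℂ (f t)) ^ j :=
      (Complex.continuous_conj.comp hfc).pow j
    have i2 : IntervalIntegrable (fun t => (starRingEnd ℂ (f t)) ^ j • Rk A h h1 h2 t)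
        MeasureTheory.volume 0 (2 * Real.pi) := (hfc'.smul hRk).intervalIntegrable _ _
    have e1 : ∫ t in (0:ℝ)..(2 * Real.pi), f t ^ j * inner ℂ v (Rk A h h1 h2 t u)
        = inner ℂ v ((∫ t in (0:ℝ)..(2 * Real.pi), f t ^ j • Rk A h h1 h2 t) u) := by
      have := ((innerSL ℂ v).comp (ContinuousLinearMap.apply ℂ H u)).intervalIntegral_comp_comm i1
      simpa [inner_smul_right] using this
    have e2 : ∫ t in (0:ℝ)..(2 * Real.pi), f t ^ j * inner ℂ (Rk A h h1 h2 t v) u
        = inner ℂ ((∫ t in (0:ℝ)..(2 * Real.pi), (starRingEnd ℂ (f t)) ^ j • Rk A h h1 h2 t) v) u := by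
      have := ((innerSL ℂ u).comp (ContinuousLinearMap.apply ℂ H v)).intervalIntegral_comp_comm i2
      have h3 : ∀ t, f t ^ j * inner ℂ (Rk A h h1 h2 t v) u
          = starRingEnd ℂ ((starRingEnd ℂ (f t)) ^ j * inner ℂ u (Rk A h h1 h2 t v)) := by
        intro t
        rw [map_mul, map_pow, Complex.conj_conj, inner_conj_symm]
      have h4 : ∫ t in (0:ℝ)..(2 * Real.pi), (starRingEnd ℂ (f t)) ^ j * inner ℂ u (Rk A h h1 h2 t v)
          = inner ℂ u ((∫ t in (0:ℝ)..(2 * Real.pi), (starRingEnd ℂ (f t)) ^ j • Rk A h h1 h2 t) v) := by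
        simpa [inner_smul_right] using this
      simp_rw [h3]
      rw [← inner_conj_symm, ← h4, intervalIntegral.integral_of_le hpi.le,
        intervalIntegral.integral_of_le hpi.le]
      exact integral_conj
    have hc1 : Continuous fun t => f t ^ j * inner ℂ v (Rk A h h1 h2 t u) :=
      (hfc.pow j).mul (continuous_const.inner (hRk.clm_apply continuous_const))
    have hc2 : Continuous fun t => f t ^ j * inner ℂ (Rk A h h1 h2 t v) u :=
      (hfc.pow j).mul ((hRk.clm_apply continuous_const).inner continuous_const)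
    have e3 : ∀ t, f t ^ j * inner ℂ v (D t u)
        = (2 * Real.pi : ℂ)⁻¹ * (f t ^ j * inner ℂ v (Rk A h h1 h2 t u))
          + (2 * Real.pi : ℂ)⁻¹ * (f t ^ j * inner ℂ (Rk A h h1 h2 t v) u) := by
      intro t
      rw [hDin]
      ring
    simp_rw [e3]
    rw [intervalIntegral.integral_add ((hc1.const_mul _).intervalIntegrable _ _)
      ((hc2.const_mul _).intervalIntegrable _ _), intervalIntegral.integral_const_mul,
      intervalIntegral.integral_const_mul, e1, e2, hBj j]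
    simp only [hN, ContinuousLinearMap.smul_apply, inner_smul_right, inner_smul_left]
    rw [hpic2, Complex.conj_ofReal]
  have hN0 : N 0 = 1 := by
    have := hBj 0
    simp only [hN, pow_zero] at this ⊢
    exact this.symm
  have hS0 : ∀ u v : H, ∫ t in (0:ℝ)..(2 * Real.pi), inner ℂ v (D t u) = 2 * inner ℂ v u := by
    intro u v
    have := hS 0 u v
    simp only [pow_zero, one_mul, hN0, ContinuousLinearMap.one_apply] at this
    rw [this]
    ring
  have hcomm : ∀ j, Commute (N j) B := by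
    intro j
    have hRB : ∀ t, Commute (Rk A h h1 h2 t) B := by
      intro t
      have k1 : Commute (rotOp A h h1 t) A := by
        unfold rotOp
        exact (((Commute.one_left A).smul_left _).sub_left (Commute.refl A)).smul_left _
      have k2 : Commute (Ring.inverse (rotOp A h h1 t)) A := by
        obtain ⟨U, hU⟩ := isUnit_of_coercive (rotOp A h h1 t) c hc (rotOp_coercive A h h1 c hA t)
        rw [← hU, Ring.inverse_unit]
        rw [← hU] at k1
        exact k1.units_inv_left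
      have k3 : Commute (Rk A h h1 h2 t) A := k2.smul_left _
      rw [hB]
      induction Q using Polynomial.induction_on' with
      | add p q hp hq => rw [map_add]; exact hp.add_right hq
      | monomial n a =>
        rw [aeval_monomial]
        exact (Algebra.commute_algebraMap_right a _).mul_right (k3.pow_right n)
    have hfc' : Continuous fun t => (starRingEnd ℂ (f t)) ^ j :=
      (Complex.continuous_conj.comp hfc).pow j
    have i2 : IntervalIntegrable (fun t => (starRingEnd ℂ (f t)) ^ j • Rk A h h1 h2 t)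
        MeasureTheory.volume 0 (2 * Real.pi) := (hfc'.smul hRk).intervalIntegrable _ _
    have l1 := (ContinuousLinearMap.mul ℂ (H →L[ℂ] H) B).intervalIntegral_comp_comm i2
    have l2 := ((ContinuousLinearMap.mul ℂ (H →L[ℂ] H)).flip B).intervalIntegral_comp_comm i2
    simp only [ContinuousLinearMap.mul_apply', ContinuousLinearMap.flip_apply] at l1 l2
    have l3 : ∀ t, (starRingEnd ℂ (f t)) ^ j • Rk A h h1 h2 t * B
        = B * (starRingEnd ℂ (f t)) ^ j • Rk A h h1 h2 t := by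
      intro t
      rw [smul_mul_assoc, mul_smul_comm, (hRB t).eq]
    have l4 : Commute (∫ t in (0:ℝ)..(2 * Real.pi), (starRingEnd ℂ (f t)) ^ j • Rk A h h1 h2 t) B := by
      show _ * _ = _ * _
      rw [← l1, ← l2]
      simp_rw [l3]
    exact l4.smul_left _
  have hfin := core B D f N C0 hDc hfc hDpos hf1 hS0 hS hcomm
    (fun j => hbound _ (by fun_prop) (fun t => by
      rw [norm_pow, RCLike.norm_conj]; exact pow_le_one₀ (norm_nonneg _) (hf1 t)))
    (fun j => by
      rw [hBj]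
      exact hbound _ (by fun_prop) (fun t => by
        rw [norm_pow]; exact pow_le_one₀ (norm_nonneg _) (hf1 t)))
  have hPQ : aeval A P = (M : ℂ) • B := by
    rw [hB, hQ, map_mul, aeval_C, ← Algebra.smul_def, smul_smul, ← Complex.ofReal_mul,
      mul_inv_cancel₀ hM0.ne', Complex.ofReal_one, one_smul]
  rw [hPQ, norm_smul, Complex.norm_real, Real.norm_eq_abs, abs_of_pos hM0]
  nlinarith

end

end Vale.Agent.Lib.P123
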