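import Vale.Agent.Lib.P123.Defs

open Complex Polynomial

namespace Vale.Agent.Lib.P123

/-- approximation of the sup norm of a polynomial near a bounded convex set -/
theorem poly_bound_near (W : Set ℂ) (hconv : Convex ℝ W) (hne : W.Nonempty)
    (hbdd : Bornology.IsBounded W) (w : ℝ → ℝ)
    (hw : ∀ t : ℝ, w t = sSup ((fun z : ℂ => (exp (-(I * t)) * z).re) '' W))
    (P : ℂ[X]) (M : ℝ) (hM : ∀ z ∈ W, ‖P.eval z‖ ≤ M) (η : ℝ) (hη : 0 < η) :
    ∃ ε : ℝ, 0 < ε ∧ ∀ z : ℂ, (∀ t : ℝ, (exp (-(I * t)) * z).re ≤ w t + ε) →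
      ‖P.eval z‖ ≤ M + η := by
  have hKc : IsCompact (closure W) := hbdd.isCompact_closure
  have hKconv : Convex ℝ (closure W) := hconv.closure
  have hKne : (closure W).Nonempty := hne.closure
  have hUo : IsOpen {z : ℂ | ‖P.eval z‖ < M + η} :=
    isOpen_lt (P.continuous.norm) continuous_const
  have hMK : ∀ z ∈ closure W, ‖P.eval z‖ ≤ M := by
    intro z hz
    have hcl : IsClosed {z : ℂ | ‖P.eval z‖ ≤ M} :=
      isClosed_le (P.continuous.norm) continuous_const
    exact closure_minimal (fun z hz => hM z hz) hcl hz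
  have hsub : closure W ⊆ {z : ℂ | ‖P.eval z‖ < M + η} := by
    intro z hz
    have := hMK z hz
    show ‖P.eval z‖ < M + η
    linarith
  obtain ⟨δ, hδ, hthick⟩ := hKc.exists_thickening_subset_open hUo hsub
  refine ⟨δ / 2, by linarith, ?_⟩
  intro z hz
  have key : Metric.infDist z (closure W) ≤ δ / 2 := by
    by_contra hcon
    push Not at hcon
    obtain ⟨p, hpK, hp⟩ := hKc.exists_infDist_eq_dist hKne z
    have hdist : δ / 2 < ‖z - p‖ := by
      rw [hp, dist_eq_norm] at hcon
      exact hcon
    have hmin : ‖z - p‖ = ⨅ q : closure W, ‖z - q‖ := by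
      have hne' : Nonempty (closure W) := hKne.to_subtype
      apply le_antisymm
      · apply le_ciInf
        intro q
        have h1 := Metric.infDist_le_dist_of_mem (x := z) q.2
        rw [hp, dist_eq_norm, dist_eq_norm] at h1
        exact h1
      · exact ciInf_le ⟨0, by rintro _ ⟨q, rfl⟩; exact norm_nonneg _⟩ (⟨p, hpK⟩ : closure W)
    have hinner := (norm_eq_iInf_iff_real_inner_le_zero hKconv hpK).1 hmin
    set r : ℝ := ‖z - p‖ with hr
    have hrpos : 0 < r := by linarith
    set t : ℝ := arg (z - p) with ht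
    have hpol : z - p = r * exp (t * I) := (norm_mul_exp_arg_mul_I (z - p)).symm
    have hq : ∀ q ∈ closure W, (exp (-(I * t)) * (q - p)).re ≤ 0 := by
      intro q hq
      have h1 := hinner q hq
      rw [Complex.inner, hpol, map_mul, conj_ofReal, ← exp_conj, map_mul, conj_ofReal, conj_I,
        mul_left_comm, re_ofReal_mul, mul_comm (q - p)] at h1
      have h2 : exp (-(I * t)) = exp (↑t * -I) := by congr 1; ring
      rw [h2]
      by_contra h3
      push Not at h3
      have := mul_pos hrpos h3
      linarith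
    have hz1 : (exp (-(I * t)) * (z - p)).re = r := by
      rw [hpol, mul_left_comm, ← exp_add]
      have : -(I * (t : ℂ)) + t * I = 0 := by ring
      rw [this, exp_zero, mul_one, ofReal_re]
    have hwt : w t ≤ (exp (-(I * t)) * p).re := by
      rw [hw t]
      apply csSup_le (hne.image _)
      rintro _ ⟨q, hqW, rfl⟩
      have := hq q (subset_closure hqW)
      rw [mul_sub, sub_re] at this
      simp only
      linarith
    have h4 := hz t
    rw [mul_sub, sub_re] at hz1
    linarith
  have hmem : z ∈ Metric.thickening δ (closure W) := by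
    rw [Metric.mem_thickening_iff_infDist_lt hKne]
    linarith
  exact (hthick hmem).le

end Vale.Agent.Lib.P123
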