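import Vale.Agent.Lib.P123.Defs

open Complex Polynomial

namespace Vale.Agent.Lib.P123

/-- the second difference of the double primitive is at least `m d ^ 2` -/
theorem secdiff_ge {w : ℝ → ℝ} (hc : Continuous w) {W1 W2 : ℝ → ℝ}
    (hW1 : ∀ t, W1 t = ∫ x in (0 : ℝ)..t, w x) (hW2 : ∀ t, W2 t = ∫ x in (0 : ℝ)..t, W1 x)
    (hcW1 : Continuous W1) {t d m : ℝ} (hd : 0 ≤ d)
    (hm : ∀ y, t ≤ y → y ≤ t + 2 * d → m ≤ w y) :
    m * d ^ 2 ≤ W2 (t + 2 * d) - 2 * W2 (t + d) + W2 t := by
  have h1 : W2 (t + 2 * d) - W2 (t + d) = ∫ x in t..(t + d), W1 (x + d) := by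
    rw [hW2, hW2, intervalIntegral.integral_interval_sub_left
      (hcW1.intervalIntegrable _ _) (hcW1.intervalIntegrable _ _),
      intervalIntegral.integral_comp_add_right]
    congr 1
    ring
  have h2 : W2 (t + d) - W2 t = ∫ x in t..(t + d), W1 x := by
    rw [hW2, hW2, intervalIntegral.integral_interval_sub_left
      (hcW1.intervalIntegrable _ _) (hcW1.intervalIntegrable _ _)]
  have h3 : W2 (t + 2 * d) - 2 * W2 (t + d) + W2 t
      = ∫ x in t..(t + d), (W1 (x + d) - W1 x) := by
    have hc' : Continuous fun x => W1 (x + d) := by fun_prop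
    rw [intervalIntegral.integral_sub (hc'.intervalIntegrable _ _)
      (hcW1.intervalIntegrable _ _), ← h1, ← h2]
    ring
  rw [h3]
  have h4 : ∫ x in t..(t + d), (m * d) = m * d ^ 2 := by
    rw [intervalIntegral.integral_const, smul_eq_mul]; ring
  rw [← h4]
  refine intervalIntegral.integral_mono_on (by linarith) (by simp)
    ((show Continuous fun x => W1 (x + d) - W1 x by fun_prop).intervalIntegrable _ _) ?_
  intro x hx
  have h5 : W1 (x + d) - W1 x = ∫ y in x..(x + d), w y := by
    rw [hW1, hW1, intervalIntegral.integral_interval_sub_left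
      (hc.intervalIntegrable _ _) (hc.intervalIntegrable _ _)]
  rw [h5]
  have h6 : ∫ y in x..(x + d), m = m * d := by
    rw [intervalIntegral.integral_const, smul_eq_mul]; ring
  rw [← h6]
  refine intervalIntegral.integral_mono_on (by linarith) (by simp)
    (hc.intervalIntegrable _ _) ?_
  intro y hy
  exact hm y (by linarith [hx.1, hy.1]) (by linarith [hx.2, hy.2])

/-- smoothing of a support function (double Steklov average plus a constant) -/
theorem exists_smooth_support (w : ℝ → ℝ) (L : ℝ) (hper : ∀ t, w (t + 2 * Real.pi) = w t)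
    (hL : ∀ a b, |w a - w b| ≤ L * |a - b|)
    (hw2 : ∀ t d, 2 * Real.cos d * w t ≤ w (t + d) + w (t - d)) (ε : ℝ) (hε : 0 < ε) :
    ∃ h h1 h2 : ℝ → ℝ, ∃ c : ℝ, 0 < c ∧ (∀ t, HasDerivAt h (h1 t) t) ∧
      (∀ t, HasDerivAt h1 (h2 t) t) ∧ Continuous h2 ∧
      (∀ t, h (t + 2 * Real.pi) = h t) ∧ (∀ t, h1 (t + 2 * Real.pi) = h1 t) ∧
      (∀ t, 0 ≤ h t + h2 t) ∧ (∀ t, w t + c ≤ h t) ∧ (∀ t, h t ≤ w t + ε) := by
  have hL0 : 0 ≤ L := by
    have := hL 1 0
    simp only [sub_zero, abs_one, mul_one] at this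
    exact (abs_nonneg _).trans this
  have hcont : Continuous w := by
    have : LipschitzWith (Real.toNNReal L) w := by
      refine LipschitzWith.of_dist_le_mul fun a b => ?_
      rw [Real.dist_eq, Real.dist_eq, Real.coe_toNNReal L hL0]
      exact hL a b
    exact this.continuous
  -- bound for `w`
  obtain ⟨B, hB0, hB⟩ : ∃ B, 0 ≤ B ∧ ∀ t, |w t| ≤ B := by
    refine ⟨|w 0| + L * (2 * Real.pi), by positivity, fun t => ?_⟩
    have hp : Function.Periodic w (2 * Real.pi) := hper
    obtain ⟨y, hy, hty⟩ := hp.exists_mem_Ico₀ (by positivity) t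
    rw [hty]
    have h1 := hL y 0
    rw [sub_zero, abs_of_nonneg hy.1] at h1
    have h2 : L * y ≤ L * (2 * Real.pi) := mul_le_mul_of_nonneg_left hy.2.le hL0
    have h3 : |w y| ≤ |w y - w 0| + |w 0| := by
      have := abs_add_le (w y - w 0) (w 0)
      rwa [sub_add_cancel] at this
    linarith
  set W1 : ℝ → ℝ := fun t => ∫ x in (0 : ℝ)..t, w x with hW1
  have hdW1 : ∀ t, HasDerivAt W1 (w t) t := fun t =>
    intervalIntegral.integral_hasDerivAt_right (hcont.intervalIntegrable _ _)
      (hcont.stronglyMeasurableAtFilter _ _) hcont.continuousAt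
  have hcW1 : Continuous W1 :=
    continuous_iff_continuousAt.2 fun t => (hdW1 t).continuousAt
  set W2 : ℝ → ℝ := fun t => ∫ x in (0 : ℝ)..t, W1 x with hW2
  have hdW2 : ∀ t, HasDerivAt W2 (W1 t) t := fun t =>
    intervalIntegral.integral_hasDerivAt_right (hcW1.intervalIntegrable _ _)
      (hcW1.stronglyMeasurableAtFilter _ _) hcW1.continuousAt
  -- choice of `d`
  obtain ⟨d, hd0, hd1, hd2, hd3⟩ : ∃ d : ℝ, 0 < d ∧ d ≤ 1 ∧ 2 * L * d ≤ ε / 4 ∧
      B * (5 / 48 * d ^ 2) + L * d ≤ ε / 2 := by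
    refine ⟨min 1 (ε / (8 * (L + B + 1))), lt_min one_pos (by positivity), min_le_left _ _, ?_, ?_⟩
    · have h1 : min 1 (ε / (8 * (L + B + 1))) ≤ ε / (8 * (L + B + 1)) := min_le_right _ _
      have h2 : 2 * L * min 1 (ε / (8 * (L + B + 1))) ≤ 2 * L * (ε / (8 * (L + B + 1))) :=
        mul_le_mul_of_nonneg_left h1 (by positivity)
      refine h2.trans ?_
      rw [mul_div_assoc', div_le_iff₀ (by positivity)]
      nlinarith
    · set d := min 1 (ε / (8 * (L + B + 1))) with hd
      have hdp : 0 < d := lt_min one_pos (by positivity)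
      have hd1 : d ≤ 1 := min_le_left _ _
      have h1 : d ≤ ε / (8 * (L + B + 1)) := min_le_right _ _
      rw [le_div_iff₀ (by positivity)] at h1
      have h2 : d ^ 2 ≤ d := by nlinarith
      have h3 : B * (5 / 48 * d ^ 2) ≤ B * d := by
        refine mul_le_mul_of_nonneg_left ?_ hB0
        linarith
      nlinarith
  have hdd : (0 : ℝ) < d ^ 2 := by positivity
  set F : ℝ → ℝ := fun t => (W2 (t + 2 * d) - 2 * W2 (t + d) + W2 t) / d ^ 2 with hF
  set F1 : ℝ → ℝ := fun t => (W1 (t + 2 * d) - 2 * W1 (t + d) + W1 t) / d ^ 2 with hF1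
  set F2 : ℝ → ℝ := fun t => (w (t + 2 * d) - 2 * w (t + d) + w t) / d ^ 2 with hF2
  have hshift : ∀ (G g : ℝ → ℝ), (∀ t, HasDerivAt G (g t) t) → ∀ t,
      HasDerivAt (fun t => (G (t + 2 * d) - 2 * G (t + d) + G t) / d ^ 2)
        ((g (t + 2 * d) - 2 * g (t + d) + g t) / d ^ 2) t := by
    intro G g hG t
    have h1 : HasDerivAt (fun t => G (t + 2 * d)) (g (t + 2 * d)) t :=
      (hG (t + 2 * d)).comp_add_const t (2 * d)
    have h2 : HasDerivAt (fun t => G (t + d)) (g (t + d)) t :=
      (hG (t + d)).comp_add_const t d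
    exact ((h1.sub (h2.const_mul 2)).add (hG t)).div_const _
  -- bounds for `F`
  have hlow : ∀ t m, (∀ y, t ≤ y → y ≤ t + 2 * d → m ≤ w y) → m ≤ F t := by
    intro t m hm
    simp only [hF]
    rw [le_div_iff₀ hdd]
    exact secdiff_ge hcont (fun t => rfl) (fun t => rfl) hcW1 hd0.le hm
  have hupp : ∀ t m, (∀ y, t ≤ y → y ≤ t + 2 * d → w y ≤ m) → F t ≤ m := by
    intro t m hm
    have h1 := secdiff_ge (w := fun x => - w x) (W1 := fun x => - W1 x) (W2 := fun x => - W2 x)
      (m := -m) (t := t) (d := d) hcont.neg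
      (fun t => by simp only [hW1]; rw [intervalIntegral.integral_neg])
      (fun t => by simp only [hW2]; rw [intervalIntegral.integral_neg])
      hcW1.neg hd0.le (fun y h1 h2 => neg_le_neg (hm y h1 h2))
    simp only [hF]
    rw [div_le_iff₀ hdd]
    linarith
  -- periodicity
  have hperW1 : ∀ t, W1 (t + 2 * Real.pi) = W1 t + W1 (2 * Real.pi) := by
    intro t
    have h1 : ∀ t, HasDerivAt (fun t => W1 (t + 2 * Real.pi) - W1 t) 0 t := by
      intro t
      have h2 := ((hdW1 (t + 2 * Real.pi)).comp_add_const t (2 * Real.pi)).sub (hdW1 t)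
      rw [hper, sub_self] at h2
      exact h2
    have h3 := is_const_of_deriv_eq_zero (fun t => (h1 t).differentiableAt)
      (fun t => (h1 t).deriv) t 0
    have h4 : W1 0 = 0 := by simp [hW1]
    simp only [zero_add, h4, sub_zero] at h3
    linarith
  have hperW2 : ∀ t, W2 (t + 2 * Real.pi) = W2 t + W1 (2 * Real.pi) * t + W2 (2 * Real.pi) := by
    intro t
    have h1 : ∀ t, HasDerivAt (fun t => W2 (t + 2 * Real.pi) - W2 t - W1 (2 * Real.pi) * t) 0 t := by
      intro t
      have h2 := (((hdW2 (t + 2 * Real.pi)).comp_add_const t (2 * Real.pi)).sub (hdW2 t)).sub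
        ((hasDerivAt_id t).const_mul (W1 (2 * Real.pi)))
      rw [hperW1] at h2
      have h3 : W1 t + W1 (2 * Real.pi) - W1 t - W1 (2 * Real.pi) * 1 = 0 := by ring
      rw [h3] at h2
      exact h2
    have h3 := is_const_of_deriv_eq_zero (fun t => (h1 t).differentiableAt)
      (fun t => (h1 t).deriv) t 0
    have h4 : W2 0 = 0 := by simp [hW2]
    simp only [zero_add, h4, sub_zero, mul_zero] at h3
    linarith
  refine ⟨fun t => F t + ε / 2, F1, F2, ε / 4, by positivity, ?_, ?_, ?_, ?_, ?_, ?_, ?_, ?_⟩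
  · intro t
    exact (hshift W2 W1 hdW2 t).add_const _
  · exact hshift W1 w hdW1
  · simp only [hF2]
    fun_prop
  · intro t
    simp only [hF]
    have e1 : t + 2 * Real.pi + 2 * d = (t + 2 * d) + 2 * Real.pi := by ring
    have e2 : t + 2 * Real.pi + d = (t + d) + 2 * Real.pi := by ring
    rw [e1, e2, hperW2, hperW2, hperW2]
    ring
  · intro t
    simp only [hF1]
    have e1 : t + 2 * Real.pi + 2 * d = (t + 2 * d) + 2 * Real.pi := by ring
    have e2 : t + 2 * Real.pi + d = (t + d) + 2 * Real.pi := by ring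
    rw [e1, e2, hperW1, hperW1, hperW1]
    ring
  · intro t
    have h1 : w (t + d) - L * d ≤ F t := by
      refine hlow t _ fun y h1 h2 => ?_
      have h3 := hL (t + d) y
      have h4 : |t + d - y| ≤ d := by rw [abs_le]; constructor <;> linarith
      have h5 := mul_le_mul_of_nonneg_left h4 hL0
      have h6 := le_abs_self (w (t + d) - w y)
      linarith
    have h2 := hw2 (t + d) d
    have e1 : t + d + d = t + 2 * d := by ring
    have e2 : t + d - d = t := by ring
    rw [e1, e2] at h2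
    -- `F2 ≥ -κ w (t + d)`
    have h3 : (2 * Real.cos d - 2) * w (t + d) / d ^ 2 ≤ F2 t := by
      simp only [hF2]
      refine div_le_div_of_nonneg_right ?_ hdd.le
      linarith
    have h4 := Real.cos_bound (x := d) (by rw [abs_of_pos hd0]; exact hd1)
    rw [abs_of_pos hd0] at h4
    have h5 : Real.cos d - (1 - d ^ 2 / 2) ≤ d ^ 4 * (5 / 96) := (le_abs_self _).trans h4
    have h6 : 0 ≤ Real.cos d - (1 - d ^ 2 / 2) := by
      have := Real.one_sub_sq_div_two_le_cos (x := d)
      linarith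
    -- `(1 - κ) w ≥ - (5/48) d² B`
    set κ' : ℝ := (2 * (Real.cos d - (1 - d ^ 2 / 2))) / d ^ 2 with hκ'
    have h7 : 0 ≤ κ' := div_nonneg (by linarith) hdd.le
    have h8 : κ' ≤ 5 / 48 * d ^ 2 := by
      rw [hκ', div_le_iff₀ hdd]
      nlinarith
    have h9 : (2 * Real.cos d - 2) * w (t + d) / d ^ 2 = (κ' - 1) * w (t + d) := by
      rw [hκ']
      field_simp
      ring
    have h10 : - (B * (5 / 48 * d ^ 2)) ≤ κ' * w (t + d) := by
      have h11 := hB (t + d)
      rw [abs_le] at h11
      have h12 : κ' * (-B) ≤ κ' * w (t + d) := mul_le_mul_of_nonneg_left h11.1 h7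
      have h13 : κ' * B ≤ (5 / 48 * d ^ 2) * B := mul_le_mul_of_nonneg_right h8 hB0
      linarith
    rw [h9] at h3
    show 0 ≤ F t + ε / 2 + F2 t
    linarith
  · intro t
    have h1 : w t - 2 * L * d ≤ F t := by
      refine hlow t _ fun y h1 h2 => ?_
      have h3 := hL t y
      have h4 : |t - y| ≤ 2 * d := by rw [abs_le]; constructor <;> linarith
      have h5 := mul_le_mul_of_nonneg_left h4 hL0
      have h6 := le_abs_self (w t - w y)
      linarith
    show w t + ε / 4 ≤ F t + ε / 2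
    linarith
  · intro t
    have h1 : F t ≤ w t + 2 * L * d := by
      refine hupp t _ fun y h1 h2 => ?_
      have h3 := hL y t
      have h4 : |y - t| ≤ 2 * d := by rw [abs_le]; constructor <;> linarith
      have h5 := mul_le_mul_of_nonneg_left h4 hL0
      have h6 := le_abs_self (w y - w t)
      linarith
    show F t + ε / 2 ≤ w t + ε
    linarith

end Vale.Agent.Lib.P123
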