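import Vale.Agent.Lib.P123.Defs

open Complex Polynomial

namespace Vale.Agent.Lib.P123

theorem support_abs_le (t : ℝ) (z : ℂ) : |(exp (-(I * t)) * z).re| ≤ ‖z‖ := by
  refine (Complex.abs_re_le_norm _).trans ?_
  rw [norm_mul]
  have h1 : ‖exp (-(I * t))‖ = 1 := by
    have : -(I * t) = ((-t : ℝ) : ℂ) * I := by push_cast; ring
    rw [this, Complex.norm_exp_ofReal_mul_I]
  rw [h1, one_mul]

theorem support_lip (a b : ℝ) (z : ℂ) :
    |(exp (-(I * a)) * z).re - (exp (-(I * b)) * z).re| ≤ |a - b| * ‖z‖ := by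
  have h1 : (exp (-(I * a)) * z).re - (exp (-(I * b)) * z).re =
      (exp (-(I * b)) * (exp (I * ((b - a : ℝ) : ℂ)) - 1) * z).re := by
    rw [← Complex.sub_re]
    congr 1
    have h2 : exp (-(I * a)) = exp (-(I * b)) * exp (I * ((b - a : ℝ) : ℂ)) := by
      rw [← Complex.exp_add]
      congr 1
      push_cast
      ring
    rw [h2]
    ring
  rw [h1]
  refine (Complex.abs_re_le_norm _).trans ?_
  rw [norm_mul, norm_mul]
  have h3 : ‖exp (-(I * b))‖ = 1 := by
    have : -(I * b) = ((-b : ℝ) : ℂ) * I := by push_cast; ring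
    rw [this, Complex.norm_exp_ofReal_mul_I]
  rw [h3, one_mul]
  have h4 : ‖exp (I * ((b - a : ℝ) : ℂ)) - 1‖ ≤ |a - b| := by
    have h5 := Real.norm_exp_I_mul_ofReal_sub_one_le (x := b - a)
    rw [Real.norm_eq_abs, abs_sub_comm] at h5
    exact h5
  exact mul_le_mul_of_nonneg_right h4 (norm_nonneg _)

theorem support_sum (t d : ℝ) (z : ℂ) :
    (exp (-(I * ((t + d : ℝ) : ℂ))) * z).re + (exp (-(I * ((t - d : ℝ) : ℂ))) * z).re =
      2 * Real.cos d * (exp (-(I * t)) * z).re := by
  rw [← Complex.add_re]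
  have h1 : exp (-(I * ((t + d : ℝ) : ℂ))) * z + exp (-(I * ((t - d : ℝ) : ℂ))) * z =
      ((2 * Real.cos d : ℝ) : ℂ) * (exp (-(I * t)) * z) := by
    have h2 : exp (-(I * ((t + d : ℝ) : ℂ))) = exp (-(I * t)) * exp (-(d : ℂ) * I) := by
      rw [← Complex.exp_add]
      congr 1
      push_cast
      ring
    have h3 : exp (-(I * ((t - d : ℝ) : ℂ))) = exp (-(I * t)) * exp ((d : ℂ) * I) := by
      rw [← Complex.exp_add]
      congr 1
      push_cast
      ring
    rw [h2, h3]
    push_cast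
    rw [Complex.cos]
    ring
  rw [h1, Complex.re_ofReal_mul]

/-- properties of the support function of a bounded set -/
theorem support_props (W : Set ℂ) (hne : W.Nonempty) (R : ℝ) (hR : ∀ z ∈ W, ‖z‖ ≤ R) (w : ℝ → ℝ)
    (hw : ∀ t : ℝ, w t = sSup ((fun z : ℂ => (exp (-(I * t)) * z).re) '' W)) :
    (∀ t, w (t + 2 * Real.pi) = w t) ∧ (∀ a b, |w a - w b| ≤ R * |a - b|) ∧
    (∀ t d, 2 * Real.cos d * w t ≤ w (t + d) + w (t - d)) ∧
    (∀ t : ℝ, ∀ z ∈ W, (exp (-(I * t)) * z).re ≤ w t) := by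
  have hle : ∀ t : ℝ, ∀ z ∈ W, (exp (-(I * t)) * z).re ≤ w t := by
    intro t z hz
    rw [hw]
    refine le_csSup ⟨R, ?_⟩ ⟨z, hz, rfl⟩
    rintro _ ⟨y, hy, rfl⟩
    exact ((le_abs_self _).trans (support_abs_le t y)).trans (hR y hy)
  have hge : ∀ (t : ℝ) (C : ℝ), (∀ z ∈ W, (exp (-(I * t)) * z).re ≤ C) → w t ≤ C := by
    intro t C hC
    rw [hw]
    refine csSup_le (hne.image _) ?_
    rintro _ ⟨y, hy, rfl⟩
    exact hC y hy
  refine ⟨fun t => ?_, fun a b => ?_, fun t d => ?_, hle⟩
  · rw [hw, hw]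
    congr 1
    refine Set.image_congr fun z _ => ?_
    have h1 : exp (-(I * ((t + 2 * Real.pi : ℝ) : ℂ))) = exp (-(I * t)) := by
      have h2 : -(I * ((t + 2 * Real.pi : ℝ) : ℂ)) = -(I * t) - 2 * Real.pi * I := by
        push_cast
        ring
      rw [h2]
      exact Complex.exp_periodic.sub_eq _
    rw [h1]
  · have key : ∀ a b : ℝ, w a ≤ w b + R * |a - b| := by
      intro a b
      refine hge a _ fun z hz => ?_
      have h1 := support_lip a b z
      have h2 := hle b z hz
      have h3 : |a - b| * ‖z‖ ≤ R * |a - b| := by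
        rw [mul_comm R]
        exact mul_le_mul_of_nonneg_left (hR z hz) (abs_nonneg _)
      have h4 := (abs_le.1 h1).2
      linarith
    rw [abs_le]
    have h1 := key a b
    have h2 := key b a
    rw [abs_sub_comm] at h2
    constructor <;> linarith
  · rcases le_or_gt (Real.cos d) 0 with hd | hd
    · obtain ⟨z, hz⟩ := hne
      have h1 := support_sum t d z
      have h2 := hle (t + d) z hz
      have h3 := hle (t - d) z hz
      have h4 := hle t z hz
      have h5 : 2 * Real.cos d * w t ≤ 2 * Real.cos d * (exp (-(I * t)) * z).re :=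
        mul_le_mul_of_nonpos_left h4 (by linarith)
      linarith
    · have h6 : w t ≤ (w (t + d) + w (t - d)) / (2 * Real.cos d) := by
        refine hge t _ fun z hz => ?_
        rw [le_div_iff₀ (by linarith)]
        have h1 := support_sum t d z
        have h2 := hle (t + d) z hz
        have h3 := hle (t - d) z hz
        linarith
      rw [le_div_iff₀ (by linarith)] at h6
      linarith

end Vale.Agent.Lib.P123
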