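import Vale.Agent.Lib.P123.OnCurve
import Vale.Agent.Lib.P123.Convex
import Vale.Agent.Lib.P123.Smooth
import Vale.Agent.Lib.P123.CurveLe
import Vale.Agent.Lib.P123.PolyNear
import Vale.Agent.Lib.P123.Support

open Complex Polynomial

namespace Vale.Agent.Lib.P123

/-- The upper bound: Crouzeix's inequality with constant two. -/
theorem upper {H : Type*} [NormedAddCommGroup H] [InnerProductSpace ℂ H] [CompleteSpace H]
    [Nontrivial H] (A : H →L[ℂ] H) (P : ℂ[X]) :
    ‖aeval A P‖ ≤ 2 * sSup ((fun z => ‖P.eval z‖) '' numRange A) := by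
  set W : Set ℂ := numRange A with hW
  have hbd : ∀ z ∈ W, ‖z‖ ≤ ‖A‖ := by
    rintro z ⟨x, hx, rfl⟩
    calc ‖inner ℂ x (A x)‖ ≤ ‖x‖ * ‖A x‖ := norm_inner_le_norm _ _
      _ ≤ ‖x‖ * (‖A‖ * ‖x‖) := by gcongr; exact A.le_opNorm x
      _ = ‖A‖ := by rw [hx]; ring
  have hne : W.Nonempty := by
    obtain ⟨x, hx⟩ := exists_norm_eq H (c := 1) zero_le_one
    exact ⟨_, x, hx, rfl⟩
  have hbdd : Bornology.IsBounded W := by
    rw [isBounded_iff_forall_norm_le]
    exact ⟨‖A‖, hbd⟩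
  have hcomp : IsCompact (closure W) := hbdd.isCompact_closure
  have hba : BddAbove ((fun z => ‖P.eval z‖) '' W) := by
    have h1 := (hcomp.image (f := fun z => ‖P.eval z‖) P.continuous.norm).bddAbove
    exact h1.mono (Set.image_mono subset_closure)
  set M : ℝ := sSup ((fun z => ‖P.eval z‖) '' W) with hMdef
  have hM : ∀ z ∈ W, ‖P.eval z‖ ≤ M := fun z hz => le_csSup hba ⟨z, hz, rfl⟩
  have hM0 : 0 ≤ M := by
    obtain ⟨z, hz⟩ := hne
    exact (norm_nonneg _).trans (hM z hz)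
  set w : ℝ → ℝ := fun t => sSup ((fun z : ℂ => (exp (-(I * t)) * z).re) '' W) with hw
  obtain ⟨p1, p2, p3, p4⟩ := support_props W hne ‖A‖ hbd w (fun t => rfl)
  apply le_of_forall_pos_le_add
  intro η hη
  obtain ⟨ε, hε, hεP⟩ := poly_bound_near W (convex_numRange A) hne hbdd w (fun t => rfl) P M hM
    (η / 2) (by positivity)
  obtain ⟨h, h1, h2, c, hc, d1, d2, c2, per, per1, hpos, hlow, hup⟩ :=
    exists_smooth_support w ‖A‖ p1 p2 p3 ε hε
  obtain ⟨z0, hz0⟩ := hne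
  have hA : ∀ (t : ℝ) (u : H), (exp (-(I * t)) * inner ℂ u (A u)).re ≤ (h t - c) * ‖u‖ ^ 2 := by
    intro t u
    by_cases hu : u = 0
    · subst hu; simp
    have hun : ‖u‖ ≠ 0 := norm_ne_zero_iff.mpr hu
    have hun' : (0 : ℝ) < ‖u‖ := norm_pos_iff.mpr hu
    set x : H := ((‖u‖⁻¹ : ℝ) : ℂ) • u with hx
    have hx1 : ‖x‖ = 1 := by
      rw [hx, norm_smul, Complex.norm_real, norm_inv, norm_norm, inv_mul_cancel₀ hun]
    have hux : u = ((‖u‖ : ℝ) : ℂ) • x := by
      rw [hx, smul_smul, ← Complex.ofReal_mul, mul_inv_cancel₀ hun, Complex.ofReal_one, one_smul]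
    have hin : inner ℂ u (A u) = ((‖u‖ ^ 2 : ℝ) : ℂ) * inner ℂ x (A x) := by
      conv_lhs => rw [hux]
      rw [map_smul, inner_smul_left, inner_smul_right, Complex.conj_ofReal]
      push_cast
      ring
    have hz : inner ℂ x (A x) ∈ W := ⟨x, hx1, rfl⟩
    have h3 := p4 t _ hz
    have h4 := hlow t
    have h5 : (exp (-(I * t)) * inner ℂ u (A u)).re
        = ‖u‖ ^ 2 * (exp (-(I * t)) * inner ℂ x (A x)).re := by
      rw [hin, mul_left_comm, Complex.re_ofReal_mul]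
    rw [h5]
    have h6 : 0 ≤ ‖u‖ ^ 2 := by positivity
    nlinarith
  have hz0' : ∀ t : ℝ, (exp (-(I * t)) * z0).re ≤ h t - c := by
    intro t
    have h3 := p4 t _ hz0
    have h4 := hlow t
    linarith
  have hMc : ∀ t, ‖P.eval (curve h h1 t)‖ ≤ M + η / 2 := by
    intro t
    apply hεP
    intro s
    exact (curve_le_support h h1 h2 d1 d2 per hpos t s).trans (hup s)
  have := bound_on_curve A h h1 h2 d1 d2 c2 per per1 hpos c hc hA z0 hz0' P (M + η / 2)
    (by positivity) hMc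
  linarith

end Vale.Agent.Lib.P123
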